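import Vale.Agent.P284.H224.N.Fl
import Vale.Agent.P284.H672.ExS
import Vale.Agent.P284.H885.Cov

/-!
# P284 (helper224), program N: equivariance with a linear part

`F (g y) = A_g (F y) + b_g` for all `g ∈ Γ`, `A_g` linear.
-/

open scoped Manifold ContDiff Topology ENNReal
open Filter Set Metric MeasureTheory

noncomputable section

namespace Vale.Agent.P284.H224.N

open Vale.Agent.P272.K Vale.Agent.P284.H894.W Vale.Agent.P284.H894.G Vale.Agent.P284.H10
  Vale.Agent.P284.H573 Vale.Agent.P284.H494 Vale.Agent.P284.H837 Vale.Agent.P284.H885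
  Vale.Agent.P284.H672

/-- equivariance with a linear part -/
def Twi {E : Type} (Γ : Type) [Group Γ] [MulAction Γ E] {q : ℕ} (F : E → Cm q) : Prop :=
  ∀ g : Γ, ∃ (A : Cm q ≃L[ℂ] Cm q) (b : Cm q), ∀ y, F (g • y) = A (F y) + b

/-- the factor of the determinants -/
theorem det_clm {q : ℕ} (A : Cm q ≃L[ℂ] Cm q) : ∃ δ : ℂ, δ ≠ 0 ∧ ∀ v : Fin q → Cm q,
    (Matrix.of fun i j => A (v j) i).det = δ * (Matrix.of fun i j => v j i).det := by
  refine ⟨(LinearMap.toMatrix' (A : Cm q →ₗ[ℂ] Cm q)).det, ?_, fun v => ?_⟩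
  · rw [LinearMap.det_toMatrix']
    exact LinearEquiv.isUnit_det' A.toLinearEquiv |>.ne_zero
  · rw [← Matrix.det_mul]
    congr 1
    ext i j
    have h1 := LinearMap.toMatrix'_mulVec (A : Cm q →ₗ[ℂ] Cm q) (v j)
    have h2 := congrFun h1 i
    rw [Matrix.mulVec, dotProduct] at h2
    rw [Matrix.mul_apply]
    exact h2.symm

section

variable {n : ℕ} {X : Type} [TopologicalSpace X] [ChartedSpace (Cm n) X]
  {E : Type} [TopologicalSpace E] {p : E → X} {Γ : Type} [Group Γ] [MulAction Γ E]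
  {w : Chart n X → Cm n → Matrix (Fin n) (Fin n) ℂ} {q r : ℕ} {F : E → Cm q} {B : ℝ}
  {W : Type} [NormedAddCommGroup W] [InnerProductSpace ℂ W] {h : E → W}

theorem inv_tendsto (hp : IsGalois Γ p) (g : Γ) (y : E) :
    Tendsto (fun y' => g⁻¹ • y') (𝓝 (g • y)) (𝓝 y) := by
  have := (hp.cont g⁻¹).tendsto (g • y)
  simpa using this

omit [ChartedSpace (Cm n) X] in
/-- the local expression at a translate -/
theorem loc_smul (hp : IsGalois Γ p) {g : Γ} {A : Cm q ≃L[ℂ] Cm q} {b : Cm q}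
    (hA : ∀ y, F (g • y) = A (F y) + b) {y : E} {e : Chart n X} {f : Cm n → Cm q}
    (hf : ∀ᶠ y' in 𝓝 y, F y' = f (e (p y'))) :
    ∀ᶠ y' in 𝓝 (g • y), F y' = (fun z => A (f z) + b) (e (p y')) := by
  filter_upwards [(inv_tendsto hp g y).eventually hf] with y' hy'
  have h3 := hA (g⁻¹ • y')
  rw [smul_inv_smul] at h3
  rw [h3, hy', p_smul' hp]

omit [TopologicalSpace X] [ChartedSpace (Cm n) X] [TopologicalSpace E] [MulAction Γ E] [Group Γ] in
theorem fderiv_aff {A : Cm q ≃L[ℂ] Cm q} {b : Cm q} (f : Cm n → Cm q) (z : Cm n) (v : Cm n) :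
    fderiv ℂ (fun z => A (f z) + b) z v = A (fderiv ℂ f z v) := by
  rw [fderiv_add_const]
  have := A.comp_fderiv (f := f) (x := z)
  have h2 : (⇑A ∘ f) = fun z => A (f z) := rfl
  rw [h2] at this
  rw [this]
  rfl

theorem Twi.reg_smul (hp : IsGalois Γ p) (hT : Twi Γ F) {g : Γ} {y : E}
    (hr : Reg (n := n) p F (g • y)) : Reg (n := n) p F y := by
  intro e f he hf
  obtain ⟨A, b, hA⟩ := hT g
  have h3 := hr e (fun z => A (f z) + b) (by rwa [p_smul' hp]) (loc_smul hp hA hf)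
  rw [p_smul' hp] at h3
  intro v
  obtain ⟨x, hx⟩ := h3 (A v)
  rw [fderiv_aff] at hx
  exact ⟨x, A.injective hx⟩

theorem Twi.reg_smul_iff (hp : IsGalois Γ p) (hT : Twi Γ F) (g : Γ) (y : E) :
    Reg (n := n) p F (g • y) ↔ Reg (n := n) p F y := by
  refine ⟨hT.reg_smul hp, fun h => hT.reg_smul hp (g := g⁻¹) ?_⟩
  simpa using h

theorem Twi.rv (hp : IsGalois Γ p) (hT : Twi Γ F) {g : Γ} {y : E} (hy : F y ∈ RV n p F) :
    F (g • y) ∈ RV n p F := by
  intro z hz
  obtain ⟨A, b, hA⟩ := hT g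
  have h1 := hA (g⁻¹ • z)
  rw [smul_inv_smul, hz, hA] at h1
  have h2 : F (g⁻¹ • z) = F y := (A.injective (add_right_cancel h1)).symm
  exact (hT.reg_smul_iff hp g⁻¹ z).1 (hy _ h2)

/-- the minor at a translate -/
theorem dt_aff (hp : IsGalois Γ p) (hF : HolB p w F B) {g : Γ} {A : Cm q ≃L[ℂ] Cm q} {b : Cm q}
    (hA : ∀ y, F (g • y) = A (F y) + b) {δ : ℂ} (hδ : ∀ v : Fin q → Cm q,
      (Matrix.of fun i j => A (v j) i).det = δ * (Matrix.of fun i j => v j i).det)
    {y : E} {e : Chart n X} (he : At e (p y)) (ξ : Fin q → Cm n) :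
    dt p F (g • y) e ξ = δ * dt p F y e ξ := by
  obtain ⟨f, h1, h2, -⟩ := hF y e he
  have hfa : AnalyticAt ℂ f (e (p y)) := by
    obtain ⟨ρ, hρ, hb⟩ := Metric.eventually_nhds_iff_ball.1 h2
    exact Vale.Agent.P268.analyticAt_of_differentiableOn isOpen_ball
      (fun z hz => (hb z hz).differentiableWithinAt) (mem_ball_self hρ)
  have h5 : ∀ v, TD p F (g • y) e v = A (TD p F y e v) := by
    intro v
    rw [TD_eq hp.cov he hfa h1, TD_eq hp.cov (by rwa [p_smul' hp])
      (f := fun z => A (f z) + b) (by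
        rw [p_smul' hp]
        exact (((A : Cm q →L[ℂ] Cm q).analyticAt _).comp hfa).add analyticAt_const)
      (loc_smul hp hA h1), p_smul' hp, fderiv_aff]
  rw [dt, dt, ← hδ]
  congr 1
  ext i j
  simp only [Matrix.of_apply]
  rw [h5]

/-- translates of `SheetHol` -/
theorem SheetHol.smul (hp : IsGalois Γ p) (hT : Twi Γ F) (hh : SheetHol n p F h) (g : Γ) :
    SheetHol n p F (fun y => h (g • y)) where
  loc y hy := by
    obtain ⟨A, b, hA⟩ := hT g
    obtain ⟨f, hf, hf'⟩ := hh.loc (g • y) ((hT.reg_smul_iff hp g y).2 hy)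
    refine ⟨fun s => f (A s + b), ?_, ?_⟩
    · rw [hA] at hf
      exact hf.fun_comp_of_eq (((A : Cm q →L[ℂ] Cm q).analyticAt _).add analyticAt_const) rfl
    · filter_upwards [((hp.cont g).tendsto y).eventually hf'] with y' hy'
      rw [hy', hA]
  ext y e f he hfa hf ξ := by
    obtain ⟨A, b, hA⟩ := hT g
    obtain ⟨δ, hδ0, hδ⟩ := det_clm A
    have he' : At e (p (g • y)) := by rwa [p_smul' hp]
    obtain ⟨φ, hφ, hφ'⟩ := hh.ext (g • y) e (fun z => A (f z) + b) he' (by
      rw [p_smul' hp]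
      exact (((A : Cm q →L[ℂ] Cm q).analyticAt _).comp hfa).add analyticAt_const)
      (loc_smul hp hA hf) ξ
    rw [p_smul' hp] at hφ
    refine ⟨fun z => δ⁻¹ • φ z, analyticAt_const.smul hφ, ?_⟩
    filter_upwards [((hp.cont g).tendsto y).eventually hφ'] with y' h1 h2
    have h3 := h1 ((hT.reg_smul_iff hp g y').2 h2)
    rw [p_smul' hp] at h3
    show _ = δ⁻¹ • φ (e (p y'))
    rw [← h3, smul_smul]
    congr 1
    have h4 : (Matrix.of fun i j => fderiv ℂ (fun z => A (f z) + b) (e (p y')) (ξ j) i).det =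
        δ * (Matrix.of fun i j => fderiv ℂ f (e (p y')) (ξ j) i).det := by
      rw [← hδ]
      congr 1
      ext i j
      simp only [Matrix.of_apply]
      rw [fderiv_aff]
    rw [h4, inv_mul_cancel_left₀ hδ0]

/-- finite families -/
theorem SheetHol.pi {ι : Type} [Fintype ι] {u : ι → E → W} (hu : ∀ i, SheetHol n p F (u i)) :
    SheetHol n p F (fun y => (WithLp.toLp 2 fun i => u i y : PiLp 2 fun _ : ι => W)) where
  loc y hy := by
    choose f hf hf' using fun i => (hu i).loc y hy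
    refine ⟨fun x => WithLp.toLp 2 fun i => f i x, ?_, ?_⟩
    · exact ((PiLp.continuousLinearEquiv 2 ℂ fun _ : ι => W).symm.toContinuousLinearMap.analyticAt
        _).comp (AnalyticAt.pi hf)
    · filter_upwards [eventually_all.2 hf'] with y' a
      congr 1
      funext i
      exact a i
  ext y e f he hfa hf ξ := by
    choose φ hφ hφ' using fun i => (hu i).ext y e f he hfa hf ξ
    refine ⟨fun x => WithLp.toLp 2 fun i => φ i x, ?_, ?_⟩
    · exact ((PiLp.continuousLinearEquiv 2 ℂ fun _ : ι => W).symm.toContinuousLinearMap.analyticAt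
        _).comp (AnalyticAt.pi hφ)
    · filter_upwards [eventually_all.2 hφ'] with y' a hy'
      rw [← WithLp.toLp_smul]
      congr 1
      funext i
      exact a i hy'

/-- transport of `SheetHol` -/
theorem sheetHol_iff {Y : Type} [TopologicalSpace Y] [ChartedSpace (Cm n) Y] {π : Y → X}
    {qY : E → Y} (hπ : Etale n π) (hpq : ∀ y, π (qY y) = p y) :
    SheetHol n qY F h ↔ SheetHol n p F h := by
  constructor
  · intro hh
    refine ⟨fun y hy => hh.loc y ((hπ.reg_iff hpq).2 hy), fun y e f he hfa hf ξ => ?_⟩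
    rw [← hpq] at he hfa
    obtain ⟨e', he', hb⟩ := hπ.exists_branch he
    have h1 : ∀ y, e' (qY y) = e (p y) := fun y => by rw [hb.apply, hpq]
    rw [← hb.apply] at hfa
    obtain ⟨φ, hφ, hφ'⟩ := hh.ext y e' f he' hfa (by
      filter_upwards [hf] with y' hy'; rw [hy', h1]) ξ
    refine ⟨φ, by rwa [h1] at hφ, ?_⟩
    filter_upwards [hφ'] with y' h2 h3
    have h4 := h2 ((hπ.reg_iff hpq).2 h3)
    rwa [h1] at h4
  · intro hh
    refine ⟨fun y hy => hh.loc y ((hπ.reg_iff hpq).1 hy), fun y e' f he' hfa hf ξ => ?_⟩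
    have hb := hπ.at_base he'
    rw [hpq] at hb
    have h1 : ∀ y, e' (qY y) = base π e' (p y) := fun y => by
      rw [(hπ.base_spec he'.1).apply, hpq]
    rw [h1] at hfa
    obtain ⟨φ, hφ, hφ'⟩ := hh.ext y (base π e') f hb hfa (by
      filter_upwards [hf] with y' hy'; rw [hy', h1]) ξ
    refine ⟨φ, by rwa [h1], ?_⟩
    filter_upwards [hφ'] with y' h2 h3
    have h4 := h2 ((hπ.reg_iff hpq).1 h3)
    rwa [h1]

end

end Vale.Agent.P284.H224.N
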