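import Vale.Agent.P284.H224.N.Form
import Vale.Agent.P284.H279.FinL

/-!
# P284 (helper224), program N: quotients of equivariant maps, local finiteness
-/

open scoped Manifold ContDiff Topology ENNReal
open Filter Set Metric MeasureTheory

noncomputable section

namespace Vale.Agent.P284.H224.N

open Vale.Agent.P272.K Vale.Agent.P284.H894.W Vale.Agent.P284.H894.G Vale.Agent.P284.H10
  Vale.Agent.P284.H573 Vale.Agent.P284.H494 Vale.Agent.P284.H837 Vale.Agent.P284.H885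
  Vale.Agent.P284.H672 Vale.Agent.P284.H224 Vale.Agent.P284.H279

/-- an isomorphism which leaves the kernel of a surjection invariant -/
theorem exists_quo_clm {q r : ℕ} (A : Cm q ≃L[ℂ] Cm q) (π : Cm q →L[ℂ] Cm r)
    (hπ : Function.Surjective π) (hk : ∀ u, π u = 0 → π (A u) = 0) :
    ∃ A' : Cm r ≃L[ℂ] Cm r, ∀ x, A' (π x) = π (A x) := by
  obtain ⟨σ, hσ⟩ := LinearMap.exists_rightInverse_of_surjective (π : Cm q →ₗ[ℂ] Cm r)
    (LinearMap.range_eq_top.2 hπ)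
  have hσ' : ∀ v, π (σ v) = v := fun v => LinearMap.congr_fun hσ v
  set M : Cm r →ₗ[ℂ] Cm r := (π : Cm q →ₗ[ℂ] Cm r) ∘ₗ (A : Cm q →ₗ[ℂ] Cm q) ∘ₗ σ with hM
  have hMv : ∀ v, M v = π (A (σ v)) := fun v => rfl
  have h1 : ∀ x, M (π x) = π (A x) := by
    intro x
    have h2 : π (σ (π x) - x) = 0 := by rw [map_sub, hσ', sub_self]
    have h3 := hk _ h2
    rw [map_sub, map_sub, sub_eq_zero] at h3
    rw [hMv, h3]
  have h2 : Function.Surjective M := by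
    intro v
    obtain ⟨u, rfl⟩ := hπ v
    exact ⟨π (A.symm u), by rw [h1, A.apply_symm_apply]⟩
  have h3 : Function.Injective M := LinearMap.injective_iff_surjective.2 h2
  exact ⟨(LinearEquiv.ofBijective M ⟨h3, h2⟩).toContinuousLinearEquiv, h1⟩

theorem twi_comp {E Γ : Type} [Group Γ] [MulAction Γ E] {q r : ℕ} {F : E → Cm q} (hT : Twi Γ F)
    (π : Cm q →L[ℂ] Cm r) (hπ : Function.Surjective π)
    (hk : ∀ (g : Γ) (A : Cm q ≃L[ℂ] Cm q) (b : Cm q), (∀ y, F (g • y) = A (F y) + b) →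
      ∀ u, π u = 0 → π (A u) = 0) : Twi Γ (fun y => π (F y)) := by
  intro g
  obtain ⟨A, b, hA⟩ := hT g
  obtain ⟨A', hA'⟩ := exists_quo_clm A π hπ (hk g A b hA)
  refine ⟨A', π b, fun y => ?_⟩
  show π (F (g • y)) = A' (π (F y)) + π b
  rw [hA, map_add, hA']

section

variable {n : ℕ} {X : Type} [TopologicalSpace X] [ChartedSpace (Cm n) X]
  {E : Type} [TopologicalSpace E] {p : E → X} {Γ : Type} [Group Γ] [MulAction Γ E]
  {w : Chart n X → Cm n → Matrix (Fin n) (Fin n) ℂ} {q r m : ℕ} {F : E → Cm q} {B : ℝ}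
  {W : Type} [NormedAddCommGroup W] [InnerProductSpace ℂ W]
  {H : Type} [NormedAddCommGroup H] [InnerProductSpace ℂ H] {h : E → W}
  {G : Subgroup Γ}

/-- the directions along which an equivariant function on the sheets is constant are invariant -/
theorem ker_inv [CompleteSpace W] [IsManifold 𝓘(ℂ, Cm n) ω X] (hp : IsGalois Γ p) (hF : HolB p w F B)
    (hT : Twi Γ F) (hex : ∃ y, Reg (n := n) p F y) (π : Cm q →L[ℂ] Cm r)
    (hπ : Function.Surjective π)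
    (hloc : ∀ y, Reg (n := n) p F y → ∃ f : Cm r → W, AnalyticAt ℂ f (π (F y)) ∧
      (∀ᶠ y' in 𝓝 y, h y' = f (π (F y'))) ∧
      ∀ v : Cm r, (∀ᶠ a in 𝓝 (π (F y)), fderiv ℂ f a v = 0) → v = 0)
    (hU : ∀ g : Γ, ∃ U : W →ₗᵢ[ℂ] W, ∀ y, Reg (n := n) p F y → h (g • y) = U (h y))
    (g : Γ) (A : Cm q ≃L[ℂ] Cm q) (b : Cm q) (hA : ∀ y, F (g • y) = A (F y) + b) (u : Cm q)
    (hu : π u = 0) : π (A u) = 0 := by
  obtain ⟨y, hy⟩ := hex
  obtain ⟨f₁, hf₁a, hf₁, -⟩ := hloc y hy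
  obtain ⟨f₂, hf₂a, hf₂, hf₂n⟩ := hloc (g • y) ((hT.reg_smul_iff hp g y).2 hy)
  obtain ⟨U, hU⟩ := hU g
  set φ : Cm q → Cm r := fun x => π (A x + b) with hφ
  have hφ0 : φ (F y) = π (F (g • y)) := by rw [hA]
  have hφo : IsOpenMap φ := by
    have h1 := (π.isOpenMap hπ).comp (A.toHomeomorph.trans (Homeomorph.addRight b)).isOpenMap
    exact h1
  have hφd : ∀ x v, fderiv ℂ φ x v = π (A v) ∧ DifferentiableAt ℂ φ x := by
    intro x v
    have h1 : HasFDerivAt φ (π.comp (A : Cm q →L[ℂ] Cm q)) x :=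
      π.hasFDerivAt.comp x ((A : Cm q →L[ℂ] Cm q).hasFDerivAt.add_const b)
    exact ⟨by rw [h1.fderiv]; rfl, h1.differentiableAt⟩
  -- the two functions
  have h1 : ∀ᶠ x in 𝓝 (F y), f₂ (φ x) = U (f₁ (π x)) := by
    rw [← reg_map_nhds hp.cov hF hy]
    show ∀ᶠ y' in 𝓝 y, f₂ (φ (F y')) = U (f₁ (π (F y')))
    filter_upwards [hf₁, ((hp.cont g).tendsto y).eventually hf₂, (reg_open hp.cov hF).mem_nhds hy]
      with y' h2 h3 h4
    show f₂ (π (A (F y') + b)) = _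
    rw [← hA, ← h3, hU y' h4, h2]
  have h2 : ∀ᶠ x in 𝓝 (F y), fderiv ℂ f₂ (φ x) (π (A u)) = 0 := by
    have h3 : ∀ᶠ x in 𝓝 (F y), AnalyticAt ℂ f₁ (π x) :=
      π.continuous.continuousAt.eventually hf₁a.eventually_analyticAt
    have h4 : ∀ᶠ x in 𝓝 (F y), AnalyticAt ℂ f₂ (φ x) := by
      have h5 : Tendsto φ (𝓝 (F y)) (𝓝 (π (F (g • y)))) := by
        rw [← hφ0]
        exact (π.continuous.comp (A.continuous.add continuous_const)).continuousAt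
      exact h5.eventually hf₂a.eventually_analyticAt
    filter_upwards [h1.eventually_nhds, h3, h4] with x k1 k2 k3
    have k4 : (fun x => f₂ (φ x)) =ᶠ[𝓝 x] fun x => U (f₁ (π x)) := k1
    have k5 : fderiv ℂ (fun x => f₂ (φ x)) x u = fderiv ℂ f₂ (φ x) (π (A u)) := by
      rw [fderiv_fun_comp x k3.differentiableAt (hφd x u).2, ContinuousLinearMap.comp_apply,
        (hφd x u).1]
    have k6 : HasFDerivAt (fun x => U (f₁ (π x))) (U.toContinuousLinearMap.comp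
        ((fderiv ℂ f₁ (π x)).comp π)) x :=
      U.toContinuousLinearMap.hasFDerivAt.comp x
        (k2.differentiableAt.hasFDerivAt.comp x π.hasFDerivAt)
    rw [← k5, k4.fderiv_eq, k6.fderiv, ContinuousLinearMap.comp_apply,
      ContinuousLinearMap.comp_apply, hu, map_zero, map_zero]
  refine hf₂n _ ?_
  rw [← hφ0]
  have h3 := hφo.nhds_le (F y)
  exact h3 h2

end

section

variable {n : ℕ} {X : Type} [TopologicalSpace X] [ChartedSpace (Cm n) X]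
  {E : Type} [TopologicalSpace E] {p : E → X} {Γ : Type} [Group Γ] [MulAction Γ E]
  {R q m : ℕ} {t : E → Cm q}
  {H : Type} [NormedAddCommGroup H] [InnerProductSpace ℂ H]
  {v : E → Chart n X → (Fin R → Cm n) → H} {G : Subgroup Γ} {c : G → Cm q}

/-- **LFIN** for maps which are equivariant with a linear part -/
theorem lfin_tw [Nonempty E] [Finite (Γ ⧸ G)] (hT : Twi Γ t) (htc : Continuous t)
    (hc : ∀ (g : G) (y : E), t ((g : Γ) • y) = t y + c g)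
    (hdisc : ∀ ρ : ℝ, {τ | (∃ g : G, c g = τ) ∧ ‖τ‖ ≤ ρ}.Finite) (S : Subgroup Γ) [S.Normal]
    (hS : ∀ g ∈ S, ∀ y, t (g • y) = t y)
    (hv : ∀ g ∈ S, ∀ y e, At e (p y) → ∀ ξ, v (g • y) e ξ = v y e ξ)
    (hfin : {a : Γ ⧸ S | ∃ g : G, ((g : Γ) : Γ ⧸ S) = a ∧ c g = 0}.Finite) :
    LFin Γ m p v t := by
  have := Fintype.ofFinite (Γ ⧸ G)
  refine ⟨S, hS, hv, ?_⟩
  intro y₀ e b γ t' hN
  obtain ⟨r, hr, hball⟩ := Metric.eventually_nhds_iff_ball.1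
    (hN.tan.continuousAt.norm.eventually_lt_const (lt_add_one ‖t' (b (e (p y₀)))‖))
  set M := ‖t' (b (e (p y₀)))‖ + 1 with hM
  have hU : {y | ‖t y‖ < ‖t y₀‖ + 1} ∈ 𝓝 y₀ :=
    htc.continuousAt.norm.eventually_lt_const (lt_add_one _)
  refine ⟨r, hr, _, hU, ?_⟩
  choose A β hA using fun i : Γ ⧸ G => hT i.out
  have hM0 : 0 ≤ M := by positivity
  set ρ : ℝ := ∑ i, ‖((A i).symm : Cm q →L[ℂ] Cm q)‖ * (M + ‖β i‖) + (‖t y₀‖ + 1) with hρ
  have hcmul : ∀ g k : G, c (g * k) = c g + c k := by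
    intro g k
    obtain ⟨y⟩ := ‹Nonempty E›
    have h1 := hc (g * k) y
    rw [Subgroup.coe_mul, mul_smul, hc, hc, add_assoc] at h1
    rw [← add_left_cancel h1, add_comm]
  have hch : ∀ τ : Cm q, ∃ g : G, (∃ g, c g = τ) → c g = τ := by
    intro τ
    by_cases h1 : ∃ g, c g = τ
    · exact ⟨h1.choose, fun _ => h1.choose_spec⟩
    · exact ⟨1, fun h2 => absurd h2 h1⟩
  choose s hs using hch
  refine ((finite_univ (α := Γ ⧸ G)).biUnion (t := fun i => ⋃ τ ∈ {τ | (∃ g : G, c g = τ) ∧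
    ‖τ‖ ≤ ρ}, (fun a : Γ ⧸ S => a⁻¹ * (((s τ : G) : Γ) : Γ ⧸ S)⁻¹ * ((i.out : Γ) : Γ ⧸ S)⁻¹) ''
    {a : Γ ⧸ S | ∃ g : G, ((g : Γ) : Γ ⧸ S) = a ∧ c g = 0})
    fun i _ => (hdisc ρ).biUnion fun τ _ => hfin.image _).subset ?_
  rintro _ ⟨g, rfl, y, hy, x, hx, hsh⟩
  set i : Γ ⧸ G := ((g⁻¹ : Γ) : Γ ⧸ G) with hi
  have hkG : i.out⁻¹ * g⁻¹ ∈ G := by
    rw [← QuotientGroup.eq, QuotientGroup.out_eq']
  set k : G := ⟨i.out⁻¹ * g⁻¹, hkG⟩ with hk
  have hgk : g⁻¹ = i.out * (k : Γ) := by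
    rw [hk]
    exact (mul_inv_cancel_left _ _).symm
  have h1 : t (g⁻¹ • y) = A i (t y + c k) + β i := by
    rw [hgk, mul_smul, hA, hc]
  have hcg : ‖c k‖ ≤ ρ := by
    obtain ⟨e', b', -, -, hb', hev⟩ := hsh
    have h3 := hev.self_of_nhds.2
    rw [hb', h1] at h3
    have h4 : c k = (A i).symm (t' x - β i) - t y := by
      rw [← h3, add_sub_cancel_right, (A i).symm_apply_apply, add_sub_cancel_left]
    have h5 : ‖t y‖ < ‖t y₀‖ + 1 := hy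
    have h6 := hball x hx
    have h7 : ‖(A i).symm (t' x - β i)‖ ≤ ‖((A i).symm : Cm q →L[ℂ] Cm q)‖ * (M + ‖β i‖) := by
      refine (((A i).symm : Cm q →L[ℂ] Cm q).le_opNorm _).trans ?_
      gcongr
      exact (norm_sub_le _ _).trans (by linarith)
    have h8 : ‖((A i).symm : Cm q →L[ℂ] Cm q)‖ * (M + ‖β i‖) ≤
        ∑ i, ‖((A i).symm : Cm q →L[ℂ] Cm q)‖ * (M + ‖β i‖) :=
      Finset.single_le_sum (f := fun i => ‖((A i).symm : Cm q →L[ℂ] Cm q)‖ * (M + ‖β i‖))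
        (fun i _ => by positivity) (Finset.mem_univ i)
    rw [h4]
    calc ‖(A i).symm (t' x - β i) - t y‖ ≤ ‖(A i).symm (t' x - β i)‖ + ‖t y‖ := norm_sub_le _ _
      _ ≤ _ := by rw [hρ]; linarith
  refine mem_iUnion₂.2 ⟨i, mem_univ _, mem_iUnion₂.2 ⟨c k, ⟨⟨k, rfl⟩, hcg⟩,
    ((((s (c k))⁻¹ * k : G) : Γ) : Γ ⧸ S), ⟨(s (c k))⁻¹ * k, rfl, ?_⟩, ?_⟩⟩
  · have h2 := hcmul (s (c k)) ((s (c k))⁻¹ * k)
    rw [mul_inv_cancel_left, hs (c k) ⟨k, rfl⟩] at h2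
    exact (left_eq_add.1 h2)
  · show ((((s (c k))⁻¹ * k : G) : Γ) : Γ ⧸ S)⁻¹ * (((s (c k) : G) : Γ) : Γ ⧸ S)⁻¹ *
      ((i.out : Γ) : Γ ⧸ S)⁻¹ = (g : Γ ⧸ S)
    rw [← QuotientGroup.mk_inv, ← QuotientGroup.mk_inv, ← QuotientGroup.mk_inv,
      ← QuotientGroup.mk_mul, ← QuotientGroup.mk_mul]
    congr 1
    have h3 : g = (k : Γ)⁻¹ * i.out⁻¹ := by
      rw [← inv_inv g, hgk, mul_inv_rev]
    rw [h3]
    simp only [Subgroup.coe_mul, Subgroup.coe_inv]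
    group

end

end Vale.Agent.P284.H224.N
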