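import Vale.Agent.P284.H224.N.Form
import Vale.Agent.P284.H224.TailEq

/-!
# P284 (helper224), program N: the tail with the normal form at all regular points

The proof is that of `TailEq.lean`.
-/

open scoped Manifold ContDiff Topology ENNReal
open Filter Set Metric MeasureTheory

noncomputable section

namespace Vale.Agent.P284.H224.N

open Vale.Agent.P272.K Vale.Agent.P284.H894.W Vale.Agent.P284.H894.G Vale.Agent.P284.H10
  Vale.Agent.P284.H573 Vale.Agent.P284.H494 Vale.Agent.P284.H837 Vale.Agent.P284.H224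

/-- **MF(I), tail with the normal form at all regular points** -/
theorem tailF (n q : ℕ) (X : Type) [TopologicalSpace X] [T2Space X] [CompactSpace X]
    [ConnectedSpace X] [ChartedSpace (Cm n) X] [IsManifold 𝓘(ℂ, Cm n) ω X]
    (w : Chart n X → Cm n → Matrix (Fin n) (Fin n) ℂ)
    (E Γ : Type) [TopologicalSpace E] [ConnectedSpace E] [Group Γ] [MulAction Γ E]
    (p : E → X) (hp : IsGalois Γ p) (F : E → Cm q) (c : Γ → Cm q) (hP : Per p w F c)
    (W : Type) [NormedAddCommGroup W] [InnerProductSpace ℂ W] [CompleteSpace W] (h : E → W)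
    (hS : SheetFun n Γ p F h) :
    ∃ (r m : ℕ) (π : Cm q →L[ℂ] Cm r) (H : Type) (_ : NormedAddCommGroup H)
      (_ : InnerProductSpace ℂ H) (_ : CompleteSpace H)
      (v : E → Chart n X → (Fin r → Cm n) → H),
      1 ≤ q ∧ 1 ≤ r ∧ 1 ≤ m ∧ Function.Surjective π ∧ (∃ y, Reg (n := n) p F y) ∧
      (∀ y, Reg (n := n) p F y → ∃ f : Cm r → W, AnalyticAt ℂ f (π (F y)) ∧
        (∀ᶠ y' in 𝓝 y, h y' = f (π (F y'))) ∧
        ∀ v : Cm r, (∀ᶠ a in 𝓝 (π (F y)), fderiv ℂ f a v = 0) → v = 0) ∧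
      HForm n r m p H v ∧
      (∀ g : Γ, (∀ y, Reg (n := n) p F y → h (g • y) = h y) →
        ∀ y e, At e (p y) → ∀ ξ, v (g • y) e ξ = v y e ξ) ∧
      (∀ y, Reg (n := n) p F y → ∃ γ, FormAt p (fun y => π (F y)) m v y γ) ∧
      ∃ y, Reg (n := n) p F y ∧ ∃ γ, FormAt p (fun y => π (F y)) m v y γ ∧
        ImmAt γ (π (F y)) := by
  obtain ⟨B, hB⟩ := hP.hol
  have hex : ∃ y, Reg (n := n) p F y := by
    obtain ⟨y, -, hy, -⟩ := hS.ne
    exact ⟨y, hy⟩
  -- `q ≥ 1`
  have hq : 1 ≤ q := by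
    by_contra hq0
    have hq0' : q = 0 := by omega
    subst hq0'
    have hreg : ∀ y, Reg (n := n) p F y := fun y e f _ _ => Function.surjective_to_subsingleton _
    have hlc : IsLocallyConstant h := by
      rw [IsLocallyConstant.iff_eventually_eq]
      intro y
      obtain ⟨f, -, hf⟩ := hS.loc y (hreg y)
      filter_upwards [hf] with y' hy'
      rw [hy', hf.self_of_nhds, Subsingleton.elim (F y') (F y)]
    obtain ⟨y, y', -, -, hne⟩ := hS.ne
    exact hne (hlc.apply_eq_of_preconnectedSpace y y')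
  obtain ⟨r, π, hr, hπ, hloc⟩ := exists_pi hq hp.cov hB hS.loc hS.ne
  set t : E → Cm r := fun y => π (F y) with ht
  have htB := holB_comp (p := p) (w := w) π hB
  set R : Set E := {y | Reg (n := n) p F y} with hR
  have hRo : IsOpen R := reg_open hp.cov hB
  have hRd : Dense R := reg_dense hq hp.cov hB hex
  have hRr : ∀ y ∈ R, Reg (n := n) p t y := fun y hy => reg_comp hp.cov π hπ hB hy
  have hRg : ∀ (g : Γ) (y : E), g • y ∈ R ↔ y ∈ R := fun g y => hP.reg_smul_iff hp g y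
  have hext : ∃ y, Reg (n := n) p t y := by
    obtain ⟨y, hy⟩ := hex
    exact ⟨y, hRr y hy⟩
  have hg : ∀ g : Γ, ∃ a, ∀ y, t (g • y) = t y + a := by
    intro g
    refine ⟨π (c g), fun y => ?_⟩
    show π (F (g • y)) = π (F y) + π (c g)
    rw [hP.equiv, map_add]
  have hGF : GF n p t R h := by
    refine ⟨fun y hy => no_pole hq hp hP hex hS π hπ (fun y hy => ?_) hy, fun y e he => ?_⟩
    · obtain ⟨f, h1, h2, -⟩ := hloc y hy
      exact ⟨f, h1, h2⟩
    · obtain ⟨ε, hε, hyε, -, hc⟩ := exists_ch_at hp.cov he univ_mem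
      obtain ⟨ζ, hma, hm0, -⟩ := exists_minor hq hp.cov hB hex hε hc hyε
      have hz : e (p y) = ε y := (hε.eq y hyε).symm
      have hFa : AnalyticAt ℂ (F ∘ ε.symm) (e (p y)) := by
        rw [hz]
        exact IsCh.analytic hε hB _ (ε.map_source hyε)
      obtain ⟨φ, hφa, hφ⟩ := hS.ext y e (F ∘ ε.symm) he hFa (hε.ev hyε) ζ
      have hm1 : AnalyticAt ℂ (fun z => (Matrix.of fun i j =>
          fderiv ℂ (F ∘ ε.symm) z (ζ j) i).det) (e (p y)) := by
        rw [hz]
        exact hma _ (ε.map_source hyε)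
      have hm2 : ¬ ∀ᶠ z in 𝓝 (e (p y)), (Matrix.of fun i j =>
          fderiv ℂ (F ∘ ε.symm) z (ζ j) i).det = 0 := by
        rw [hz]
        exact hm0
      exact ⟨fun z => (Matrix.of fun i j => fderiv ℂ (F ∘ ε.symm) z (ζ j) i).det, φ, hm1, hφa,
        hm2, hφ⟩
  have hU : ∀ g : Γ, ∃ U : W →ₗᵢ[ℂ] W, ∀ y ∈ R, h (g • y) = U (h y) := fun g => hS.equiv g
  -- the point and the local function
  obtain ⟨y₀, hy₀⟩ := hex
  have hy₀R : y₀ ∈ R := hy₀
  obtain ⟨f, hfa, hf, hfn⟩ := hloc y₀ hy₀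
  -- the order of the jets
  let N : ℕ → Submodule ℂ (Cm r) := fun k =>
    { carrier := {η | ∀ i ≤ k, ∀ s : Fin i → Fin r,
        fderiv ℂ (fun a => iteratedFDeriv ℂ i f a fun j => Pi.single (s j) 1) (t y₀) η = 0}
      zero_mem' := by
        intro i _ s
        exact map_zero _
      add_mem' := by
        intro η η' h1 h2 i hi s
        rw [map_add, h1 i hi s, h2 i hi s, add_zero]
      smul_mem' := by
        intro b η h1 i hi s
        rw [map_smul, h1 i hi s, smul_zero] }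
  have hanti : Antitone N := fun k l hkl η hη i hi s => hη i (hi.trans hkl) s
  obtain ⟨k, hk⟩ := IsArtinian.monotone_stabilizes
    (⟨fun k => OrderDual.toDual (N k), fun k l hkl => hanti hkl⟩ : ℕ →o (Submodule ℂ (Cm r))ᵒᵈ)
  have hk' : ∀ l, k ≤ l → N k = N l := fun l hl => hk l hl
  have hNk : ∀ η ∈ N k, η = 0 := by
    intro η hη
    refine hfn η (taylor_zero hfa fun i s => ?_)
    have h1 : η ∈ N (max k i) := by
      rw [← hk' _ (le_max_left _ _)]
      exact hη
    exact h1 i (le_max_right _ _) s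
  -- the functions
  let u : (Σ i : Fin (k + 1), (Fin i → Fin r)) → E → W := fun x =>
    jet t h x.1 fun j => Pi.single (x.2 j) 1
  have huGF : ∀ x, GF n p t R (u x) := fun x =>
    jet_GF hr hp.cov htB hRo hRr hext hGF _ _
  have huU : ∀ x, ∀ g : Γ, ∃ U : W →ₗᵢ[ℂ] W, ∀ y ∈ R, u x (g • y) = U (u x y) := by
    intro x g
    obtain ⟨a, ha⟩ := hg g
    obtain ⟨U, hU'⟩ := hU g
    exact ⟨U, jet_smul hr hp htB hRo hRr hext hRg hGF ha hU' _ _⟩
  have h1GF : GF n p t R (fun _ : E => (1 : ℂ)) := GF_const 1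
  have h1U : ∀ g : Γ, ∃ U : ℂ →ₗᵢ[ℂ] ℂ, ∀ y ∈ R,
      (fun _ : E => (1 : ℂ)) (g • y) = U ((fun _ : E => (1 : ℂ)) y) := fun g =>
    ⟨LinearIsometry.id, fun y _ => rfl⟩
  choose M₁ hM₁ using fun x => ext_all hp htB hRo hRd hRr hRg hg (huGF x) (huU x)
  obtain ⟨M₂, hM₂⟩ := ext_all hp htB hRo hRd hRr hRg hg h1GF h1U
  set M : ℕ := Finset.univ.sup M₁ + M₂ + 1 with hM
  have hMu : ∀ x (y : E) (e : Chart n X), At e (p y) → ExtAt p t R (u x) M y e := fun x =>
    hM₁ x M (by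
      have := Finset.le_sup (f := M₁) (Finset.mem_univ x)
      omega)
  have hM1 : ∀ (y : E) (e : Chart n X), At e (p y) →
      ExtAt p t R (fun _ : E => (1 : ℂ)) M y e := hM₂ M (by omega)
  have hv₁ := hform_vl hp htB hRd hRg hg h1U hM1
  have hv₂ := hform_pi fun x => hform_vl hp htB hRd hRg hg (huU x) (hMu x)
  have hv := hform_prod hv₁ hv₂
  refine ⟨r, M, π, _, _, _, inferInstance, _, hq, hr, by omega, hπ, ⟨y₀, hy₀⟩, hloc, hv,
    ?_, ?_, ?_⟩
  · intro g hgh y e he ξ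
    obtain ⟨a, ha⟩ := hg g
    have h1 : vl p t R (fun _ : E => (1 : ℂ)) M (g • y) e ξ =
        vl p t R (fun _ : E => (1 : ℂ)) M y e ξ :=
      vl_smul hp htB hRd hRg ha (U := LinearIsometry.id) (fun y _ => rfl) hM1 he ξ
    have h2 : ∀ x, vl p t R (u x) M (g • y) e ξ = vl p t R (u x) M y e ξ := fun x =>
      vl_smul hp htB hRd hRg ha (U := LinearIsometry.id)
        (jet_smul hr hp htB hRo hRr hext hRg hGF ha (U := LinearIsometry.id)
          (fun y hy => hgh y hy) _ _) (hMu x) he ξ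
    show WithLp.toLp 2 (_, WithLp.toLp 2 _) = WithLp.toLp 2 (_, WithLp.toLp 2 _)
    rw [h1]
    congr 2
    congr 1
    funext x
    exact h2 x
  -- the normal form at a regular point
  · intro y hy
    obtain ⟨f, hfa, hf, -⟩ := hloc y hy
    refine ⟨fun a => WithLp.toLp 2 (1, WithLp.toLp 2 fun x :
      (Σ i : Fin (k + 1), (Fin i → Fin r)) =>
        iteratedFDeriv ℂ x.1 f a fun j => Pi.single (x.2 j) 1), ?_, ?_⟩
    · exact ((WithLp.prodContinuousLinearEquiv 2 ℂ ℂ (PiLp 2 (fun _ : (Σ i : Fin (k + 1),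
        (Fin i → Fin r)) => W))).symm.toContinuousLinearMap.analyticAt _).comp
        (analyticAt_const.prod (((PiLp.continuousLinearEquiv 2 ℂ fun _ : (Σ i : Fin (k + 1),
          (Fin i → Fin r)) => W).symm.toContinuousLinearMap.analyticAt _).comp
          (AnalyticAt.pi fun x => iter_analytic hfa _ _)))
    · have hj : ∀ᶠ y' in 𝓝 y, ∀ x : (Σ i : Fin (k + 1), (Fin i → Fin r)), u x y' =
          iteratedFDeriv ℂ x.1 f (t y') fun j => Pi.single (x.2 j) 1 :=
        eventually_all.2 fun x => jet_loc hp.cov htB hRo hRr hy hfa hf _ _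
      filter_upwards [hj, hRo.mem_nhds hy] with y' h1 h2 e hey ξ
      rw [vl_mem hp.cov hRd hey (hM1 y' e hey) h2 ξ]
      have h4 : (fun x => vl p t R (u x) M y' e ξ) = dt p t y' e ξ ^ M •
          fun x : (Σ i : Fin (k + 1), (Fin i → Fin r)) =>
            iteratedFDeriv ℂ x.1 f (t y') fun j => Pi.single (x.2 j) 1 := by
        funext x
        rw [vl_mem hp.cov hRd hey (hMu x y' e hey) h2 ξ, h1 x]
        rfl
      rw [h4]
      rfl
  -- the good point
  set γ₂ : Cm r → PiLp 2 (fun _ : (Σ i : Fin (k + 1), (Fin i → Fin r)) => W) := fun a =>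
    WithLp.toLp 2 fun x => iteratedFDeriv ℂ x.1 f a fun j => Pi.single (x.2 j) 1 with hγ₂
  have hγ₂a : AnalyticAt ℂ γ₂ (t y₀) :=
    ((PiLp.continuousLinearEquiv 2 ℂ fun _ : (Σ i : Fin (k + 1), (Fin i → Fin r)) =>
      W).symm.toContinuousLinearMap.analyticAt _).comp
      (AnalyticAt.pi fun x => iter_analytic hfa _ _)
  set γ : Cm r → WithLp 2 (ℂ × PiLp 2 (fun _ : (Σ i : Fin (k + 1), (Fin i → Fin r)) => W)) :=
    fun a => WithLp.toLp 2 (1, γ₂ a) with hγ
  have hγa : AnalyticAt ℂ γ (t y₀) :=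
    ((WithLp.prodContinuousLinearEquiv 2 ℂ ℂ (PiLp 2 (fun _ : (Σ i : Fin (k + 1),
      (Fin i → Fin r)) => W))).symm.toContinuousLinearMap.analyticAt _).comp
      (analyticAt_const.prod hγ₂a)
  refine ⟨y₀, hy₀, γ, ⟨hγa, ?_⟩, ?_⟩
  · -- the normal form
    have hj : ∀ᶠ y in 𝓝 y₀, ∀ x : (Σ i : Fin (k + 1), (Fin i → Fin r)), u x y =
        iteratedFDeriv ℂ x.1 f (t y) fun j => Pi.single (x.2 j) 1 :=
      eventually_all.2 fun x => jet_loc hp.cov htB hRo hRr hy₀R hfa hf _ _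
    filter_upwards [hj, hRo.mem_nhds hy₀R] with y h1 h2 e hey ξ
    rw [vl_mem hp.cov hRd hey (hM1 y e hey) h2 ξ]
    have h4 : (fun x => vl p t R (u x) M y e ξ) = dt p t y e ξ ^ M •
        fun x : (Σ i : Fin (k + 1), (Fin i → Fin r)) =>
          iteratedFDeriv ℂ x.1 f (t y) fun j => Pi.single (x.2 j) 1 := by
      funext x
      rw [vl_mem hp.cov hRd hey (hMu x y e hey) h2 ξ, h1 x]
      rfl
    rw [h4]
    rfl
  · refine ⟨?_, ?_⟩
    · intro h0
      have h1 : (γ (t y₀)).fst = 0 := by rw [h0]; rfl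
      exact one_ne_zero h1
    · intro η b hηb
      apply hNk η
      -- the first component
      let L₁ : WithLp 2 (ℂ × PiLp 2 (fun _ : (Σ i : Fin (k + 1), (Fin i → Fin r)) => W)) →L[ℂ] ℂ :=
        (ContinuousLinearMap.fst ℂ ℂ _).comp
          (WithLp.prodContinuousLinearEquiv 2 ℂ ℂ (PiLp 2 (fun _ : (Σ i : Fin (k + 1),
            (Fin i → Fin r)) => W))).toContinuousLinearMap
      let L₂ : WithLp 2 (ℂ × PiLp 2 (fun _ : (Σ i : Fin (k + 1), (Fin i → Fin r)) => W)) →L[ℂ]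
          (∀ _ : (Σ i : Fin (k + 1), (Fin i → Fin r)), W) :=
        (PiLp.continuousLinearEquiv 2 ℂ fun _ : (Σ i : Fin (k + 1), (Fin i → Fin r)) =>
          W).toContinuousLinearMap.comp ((ContinuousLinearMap.snd ℂ ℂ _).comp
          (WithLp.prodContinuousLinearEquiv 2 ℂ ℂ (PiLp 2 (fun _ : (Σ i : Fin (k + 1),
            (Fin i → Fin r)) => W))).toContinuousLinearMap)
      have h1 : fderiv ℂ (fun a => L₁ (γ a)) (t y₀) = L₁.comp (fderiv ℂ γ (t y₀)) :=
        (L₁.hasFDerivAt.comp _ hγa.differentiableAt.hasFDerivAt).fderiv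
      have h2 : (fun a => L₁ (γ a)) = fun _ => (1 : ℂ) := rfl
      have h3 : b = 0 := by
        have h4 := congrArg (fun L : Cm r →L[ℂ] ℂ => L η) h1
        simp only [ContinuousLinearMap.comp_apply] at h4
        rw [h2, hηb, map_smul] at h4
        have h5 : L₁ (γ (t y₀)) = 1 := rfl
        rw [h5] at h4
        simpa using h4.symm
      rw [h3, zero_smul] at hηb
      intro i hi s
      let x : (Σ i : Fin (k + 1), (Fin i → Fin r)) := ⟨⟨i, by omega⟩, s⟩
      let L : WithLp 2 (ℂ × PiLp 2 (fun _ : (Σ i : Fin (k + 1), (Fin i → Fin r)) => W)) →L[ℂ] W :=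
        (ContinuousLinearMap.proj x).comp L₂
      have h4 : fderiv ℂ (fun a => L (γ a)) (t y₀) = L.comp (fderiv ℂ γ (t y₀)) :=
        (L.hasFDerivAt.comp _ hγa.differentiableAt.hasFDerivAt).fderiv
      have h5 : (fun a => L (γ a)) =
          fun a => iteratedFDeriv ℂ i f a fun j => Pi.single (s j) 1 := rfl
      rw [h5] at h4
      rw [h4, ContinuousLinearMap.comp_apply, hηb, map_zero]

end Vale.Agent.P284.H224.N
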