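import Vale.Agent.P284.H224.N.Tw
import Vale.Agent.P284.H224.Top

/-!
# P284 (helper224), program N: the family of the translates of a function on the sheets
-/

open scoped Manifold ContDiff Topology ENNReal
open Filter Set Metric MeasureTheory

noncomputable section

namespace Vale.Agent.P284.H224.N

open Vale.Agent.P272.K Vale.Agent.P284.H894.W Vale.Agent.P284.H894.G Vale.Agent.P284.H10
  Vale.Agent.P284.H573 Vale.Agent.P284.H494 Vale.Agent.P284.H837 Vale.Agent.P284.H885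
  Vale.Agent.P284.H672 Vale.Agent.P284.H224

/-- a permutation of the coordinates followed by isometries of the components -/
def isoS {W ι : Type} [NormedAddCommGroup W] [InnerProductSpace ℂ W] [Fintype ι] (σ : ι ≃ ι)
    (U : ι → W →ₗᵢ[ℂ] W) : PiLp 2 (fun _ : ι => W) →ₗᵢ[ℂ] PiLp 2 (fun _ : ι => W) where
  toFun x := WithLp.toLp 2 fun i => U i (x (σ i))
  map_add' x y := congrArg (WithLp.toLp 2) (funext fun i => map_add (U i) (x (σ i)) (y (σ i)))
  map_smul' a x := congrArg (WithLp.toLp 2) (funext fun i => map_smul (U i) a (x (σ i)))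
  norm_map' x := by
    show ‖WithLp.toLp 2 fun i => U i (x (σ i))‖ = ‖x‖
    rw [PiLp.norm_eq_of_L2, PiLp.norm_eq_of_L2]
    simp only [LinearIsometry.norm_map]
    congr 1
    exact Fintype.sum_equiv σ _ _ fun i => rfl

/-- affine changes of variables -/
theorem aff_int {q : ℕ} {s : Cm q → ℝ≥0∞} (hs : ∀ R : ℝ, ∫⁻ t in ball (0 : Cm q) R, s t < ⊤)
    (A : Cm q ≃L[ℂ] Cm q) (b : Cm q) (R : ℝ) : ∫⁻ t in ball (0 : Cm q) R, s (A t + b) < ⊤ := by
  set L : Cm q →ₗ[ℝ] Cm q := (A : Cm q →ₗ[ℂ] Cm q).restrictScalars ℝ with hL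
  have hdet : LinearMap.det L ≠ 0 := by
    have h1 : L = ((A.toLinearEquiv.restrictScalars ℝ : Cm q ≃ₗ[ℝ] Cm q) : Cm q →ₗ[ℝ] Cm q) := rfl
    rw [h1]
    exact (LinearEquiv.isUnit_det' _).ne_zero
  let T : Cm q ≃ₜ Cm q := A.toHomeomorph.trans (Homeomorph.addRight b)
  have hT : ∀ t, T t = A t + b := fun t => rfl
  have hmap : Measure.map T (volume : Measure (Cm q)) =
      ENNReal.ofReal |(LinearMap.det L)⁻¹| • volume := by
    have h1 : (T : Cm q → Cm q) = (fun t => t + b) ∘ L := rfl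
    have hLm : Measurable L := A.continuous.measurable
    rw [h1, ← Measure.map_map (measurable_add_const b) hLm]
    rw [Measure.map_linearMap_addHaar_eq_smul_addHaar _ hdet, Measure.map_smul,
      map_add_right_eq_self]
  have hsub : ∃ R' : ℝ, ball (0 : Cm q) R ⊆ T ⁻¹' ball 0 R' := by
    refine ⟨‖(A : Cm q →L[ℂ] Cm q)‖ * |R| + ‖b‖ + 1, fun t ht => ?_⟩
    rw [mem_preimage, mem_ball_zero_iff, hT]
    have h1 : ‖t‖ < R := mem_ball_zero_iff.1 ht
    have h2 := (A : Cm q →L[ℂ] Cm q).le_opNorm t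
    have h3 : ‖(A : Cm q →L[ℂ] Cm q)‖ * ‖t‖ ≤ ‖(A : Cm q →L[ℂ] Cm q)‖ * |R| := by
      gcongr
      exact h1.le.trans (le_abs_self R)
    calc ‖A t + b‖ ≤ ‖A t‖ + ‖b‖ := norm_add_le _ _
      _ < _ := by
        have : ‖A t‖ ≤ ‖(A : Cm q →L[ℂ] Cm q)‖ * ‖t‖ := h2
        linarith
  obtain ⟨R', hR'⟩ := hsub
  calc ∫⁻ t in ball (0 : Cm q) R, s (A t + b) ≤ ∫⁻ t in T ⁻¹' ball 0 R', s (A t + b) :=
        lintegral_mono_set hR'
    _ = ∫⁻ t in ball 0 R', s t ∂(Measure.map T volume) := by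
        have h1 := T.toMeasurableEquiv.restrict_map (volume : Measure (Cm q)) (ball 0 R')
        have h2 : (T.toMeasurableEquiv : Cm q → Cm q) = T := rfl
        rw [h2] at h1
        rw [h1, ← h2, lintegral_map_equiv]
        rfl
    _ < ⊤ := by
        rw [hmap, Measure.restrict_smul, lintegral_smul_measure]
        exact ENNReal.mul_lt_top ENNReal.ofReal_lt_top (hs R')

section

variable {n : ℕ} {X : Type} [TopologicalSpace X] [ChartedSpace (Cm n) X]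
  {E : Type} [TopologicalSpace E] {p : E → X} {Γ : Type} [Group Γ] [MulAction Γ E]
  {w : Chart n X → Cm n → Matrix (Fin n) (Fin n) ℂ} {q r : ℕ} {F : E → Cm q} {B : ℝ}
  {W : Type} [NormedAddCommGroup W] [InnerProductSpace ℂ W] {h : E → W}
  {G : Subgroup Γ}

/-- a measurable bound -/
theorem exists_meas [IsManifold 𝓘(ℂ, Cm n) ω X] (hp : IsCoveringMap p) (hF : HolB p w F B)
    (hRV : IsOpen (RV n p F)) (hh : SheetHol n p F h)
    (hint : ∃ s : Cm q → ℝ≥0∞, (∀ R : ℝ, ∫⁻ t in ball (0 : Cm q) R, s t < ⊤) ∧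
      ∀ y, F y ∈ RV n p F → ENNReal.ofReal (‖h y‖ ^ 2) ≤ s (F y)) :
    ∃ s : Cm q → ℝ≥0∞, Measurable s ∧ (∀ R : ℝ, ∫⁻ t in ball (0 : Cm q) R, s t < ⊤) ∧
      ∀ y, F y ∈ RV n p F → ENNReal.ofReal (‖h y‖ ^ 2) ≤ s (F y) := by
  obtain ⟨s, hs1, hs2⟩ := hint
  refine ⟨fun t => ⨆ (y : E) (_ : F y = t) (_ : t ∈ RV n p F), ENNReal.ofReal (‖h y‖ ^ 2), ?_,
    fun R => (lintegral_mono fun t => ?_).trans_lt (hs1 R), fun y hy => ?_⟩
  · refine LowerSemicontinuous.measurable ?_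
    rw [lowerSemicontinuous_iff_isOpen_preimage]
    intro a
    rw [isOpen_iff_mem_nhds]
    intro t ht
    rw [mem_preimage, mem_Ioi, lt_iSup_iff] at ht
    obtain ⟨y, hy⟩ := ht
    rw [lt_iSup_iff] at hy
    obtain ⟨rfl, hy⟩ := hy
    rw [lt_iSup_iff] at hy
    obtain ⟨hrv, hy⟩ := hy
    have hr : Reg (n := n) p F y := hrv y rfl
    obtain ⟨f, hf, hf'⟩ := hh.loc y hr
    rw [hf'.self_of_nhds] at hy
    have h1 : ∀ᶠ t' in 𝓝 (F y), a < ENNReal.ofReal (‖f t'‖ ^ 2) := by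
      have h2 : ContinuousAt (fun t' => ENNReal.ofReal (‖f t'‖ ^ 2)) (F y) :=
        ENNReal.continuous_ofReal.continuousAt.comp (hf.continuousAt.norm.pow 2)
      exact h2.eventually_const_lt hy
    have h2 : {t' | ∃ y', F y' = t' ∧ h y' = f (F y')} ∈ 𝓝 (F y) := by
      rw [← reg_map_nhds hp hF hr]
      show {y' | ∃ y'', F y'' = F y' ∧ h y'' = f (F y'')} ∈ 𝓝 y
      filter_upwards [hf'] with y' h3 using ⟨y', rfl, h3⟩
    filter_upwards [h1, h2, hRV.mem_nhds hrv] with t' h3 h4 h5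
    obtain ⟨y', rfl, h6⟩ := h4
    rw [mem_preimage, mem_Ioi, lt_iSup_iff]
    refine ⟨y', ?_⟩
    rw [lt_iSup_iff]
    refine ⟨rfl, ?_⟩
    rw [lt_iSup_iff]
    exact ⟨h5, by rwa [h6]⟩
  · refine iSup_le fun y => iSup_le fun hy => iSup_le fun hrv => ?_
    subst hy
    exact hs2 y hrv
  · exact le_iSup_of_le y (le_iSup_of_le rfl (le_iSup_of_le hy le_rfl))

/-- equivariance of the family of the translates -/
theorem totF_equiv [Fintype (Γ ⧸ G)] [G.Normal] (hp : IsGalois Γ p) (hT : Twi Γ F)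
    (hU : ∀ k ∈ G, ∃ U : W →ₗᵢ[ℂ] W, ∀ y, Reg (n := n) p F y → h (k • y) = U (h y)) (g : Γ) :
    ∃ U : PiLp 2 (fun _ : Γ ⧸ G => W) →ₗᵢ[ℂ] PiLp 2 (fun _ : Γ ⧸ G => W),
      ∀ y, Reg (n := n) p F y → totF G h (g • y) = U (totF G h y) := by
  choose k hk hk' using fun i : Γ ⧸ G => out_mul i g
  choose U hU using fun i : Γ ⧸ G => hU (k i) (hk i)
  refine ⟨isoS (Equiv.mulRight (g : Γ ⧸ G)) U, fun y hy => ?_⟩
  show WithLp.toLp 2 _ = WithLp.toLp 2 _
  congr 1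
  funext i
  rw [← mul_smul, hk' i, mul_smul, hU i _ ((hT.reg_smul_iff hp _ _).2 hy)]
  rfl

omit [NormedAddCommGroup W] [InnerProductSpace ℂ W] in
/-- elements all whose conjugates fix `h` fix the family of the translates -/
theorem totF_fix [Fintype (Γ ⧸ G)] (hp : IsGalois Γ p) (hT : Twi Γ F) {g : Γ}
    (hg : ∀ k : Γ, ∀ y, Reg (n := n) p F y → h ((k * g * k⁻¹) • y) = h y) {y : E}
    (hy : Reg (n := n) p F y) : totF G h (g • y) = totF G h y := by
  show WithLp.toLp 2 _ = WithLp.toLp 2 _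
  congr 1
  funext i
  have h1 : i.out • g • y = (i.out * g * i.out⁻¹) • i.out • y := by
    rw [← mul_smul, ← mul_smul]
    congr 1
    group
  rw [h1, hg _ _ ((hT.reg_smul_iff hp _ _).2 hy)]

/-- **the family of the translates is a function on the sheets** over the finite covering `Y` -/
theorem sheetFun_tot {Y : Type} [TopologicalSpace Y] [ChartedSpace (Cm n) Y]
    [T2Space Y] [CompactSpace Y] [ConnectedSpace Y] [ConnectedSpace E]
    [IsManifold 𝓘(ℂ, Cm n) ω Y] [Fintype (Γ ⧸ G)] [G.Normal]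
    {π : Y → X} {qY : E → Y} (hπ : Etale n π) (hpq : ∀ y, π (qY y) = p y)
    (hp : IsGalois Γ p) (hq : IsGalois G qY)
    {wY : Chart n Y → Cm n → Matrix (Fin n) (Fin n) ℂ} {c : G → Cm q} (hP : Per qY wY F c)
    (hT : Twi Γ F) (hh : SheetHol n qY F h)
    (hU : ∀ g : G, ∃ U : W →ₗᵢ[ℂ] W, ∀ y, Reg (n := n) qY F y → h (g • y) = U (h y))
    (hint : ∃ s : Cm q → ℝ≥0∞, (∀ R : ℝ, ∫⁻ t in ball (0 : Cm q) R, s t < ⊤) ∧
      ∀ y, F y ∈ RV n qY F → ENNReal.ofReal (‖h y‖ ^ 2) ≤ s (F y))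
    (hne : ∃ y y', Reg (n := n) qY F y ∧ Reg (n := n) qY F y' ∧ h y ≠ h y') :
    SheetFun n G qY F (totF G h) := by
  have hreg : ∀ y, Reg (n := n) qY F y ↔ Reg (n := n) p F y := fun y => hπ.reg_iff hpq
  have hU' : ∀ k ∈ G, ∃ U : W →ₗᵢ[ℂ] W, ∀ y, Reg (n := n) p F y → h (k • y) = U (h y) := by
    intro k hk
    obtain ⟨U, hU⟩ := hU ⟨k, hk⟩
    exact ⟨U, fun y hy => hU y ((hreg y).2 hy)⟩
  have hex : ∃ y, Reg (n := n) qY F y := by
    obtain ⟨y, -, hy, -⟩ := hne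
    exact ⟨y, hy⟩
  have hS : SheetHol n qY F (totF G h) := (sheetHol_iff hπ hpq).2
    (SheetHol.pi fun i : Γ ⧸ G => SheetHol.smul hp hT ((sheetHol_iff hπ hpq).1 hh) i.out)
  refine ⟨hS.loc, hS.ext, fun g => ?_, ?_, ?_⟩
  · obtain ⟨U, hU⟩ := totF_equiv hp hT hU' (g : Γ)
    exact ⟨U, fun y hy => hU y ((hreg y).1 hy)⟩
  · obtain ⟨B, hB⟩ := hP.hol
    obtain ⟨s, hsm, hs1, hs2⟩ := exists_meas hq.cov hB (rvStmt n q Y wY E G qY hq F c hP hex).1
      hh hint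
    choose A b hA using fun i : Γ ⧸ G => hT i.out
    refine ⟨fun t => ∑ i, s (A i t + b i), fun R => ?_, fun y hy => ?_⟩
    · rw [lintegral_finsetSum]
      · exact ENNReal.sum_lt_top.2 fun i _ => aff_int hs1 (A i) (b i) R
      · intro i _
        exact hsm.comp (((A i).continuous.add continuous_const).measurable)
    · rw [totF, PiLp.norm_sq_eq_of_L2, ENNReal.ofReal_sum_of_nonneg fun i _ => sq_nonneg _]
      refine Finset.sum_le_sum fun i _ => ?_
      rw [← hA i y]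
      refine hs2 _ fun z hz => ?_
      have h1 : F y ∈ RV n p F := fun z hz => (hreg z).1 (hy z hz)
      exact (hreg z).2 (hT.rv hp h1 z hz)
  · obtain ⟨y, y', hy, hy', hyy⟩ := hne
    refine ⟨y, y', hy, hy', fun h0 => hyy ?_⟩
    have h1 : ((1 : Γ ⧸ G).out : Γ) ∈ G := by
      rw [← QuotientGroup.eq_one_iff, QuotientGroup.out_eq']
    obtain ⟨U, hU⟩ := hU' _ h1
    have h2 : (totF G h y) 1 = (totF G h y') 1 := by rw [h0]
    have h3 : h ((1 : Γ ⧸ G).out • y) = h ((1 : Γ ⧸ G).out • y') := h2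
    rw [hU y ((hreg y).1 hy), hU y' ((hreg y').1 hy')] at h3
    exact U.injective h3

end

end Vale.Agent.P284.H224.N
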