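import Vale.Agent.P284.H224.N.Form
import Vale.Agent.P284.H224.Mult

/-!
# P284 (helper224), program N: multiple fibres over a periodic divisor, with the immersion at a regular
point

The proof is that of `Mult.lean`.
-/

open scoped Manifold ContDiff Topology
open Filter Set Metric

noncomputable section

namespace Vale.Agent.P284.H224.N

open Vale.Agent.P272.K Vale.Agent.P284.H573 Vale.Agent.P284.H894.G Vale.Agent.P284.H894.W
  Vale.Agent.P284.H494 Vale.Agent.P284.H279 Vale.Agent.P284.H10 Vale.Agent.P284.H224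

/-- **MULT**, with the immersion -/
theorem multF (n q : ℕ) (X : Type) [TopologicalSpace X] [T2Space X] [CompactSpace X]
    [ConnectedSpace X] [ChartedSpace (Cm n) X] [IsManifold 𝓘(ℂ, Cm n) ω X]
    (w : Chart n X → Cm n → Matrix (Fin n) (Fin n) ℂ)
    (E Γ : Type) [TopologicalSpace E] [ConnectedSpace E] [Group Γ] [MulAction Γ E]
    (p : E → X) (hp : IsGalois Γ p) (F : E → Cm q) (c : Γ → Cm q) (hP : Per p w F c)
    (hex : ∃ y, Reg (n := n) p F y)
    (Λ : AddSubgroup (Cm q)) (hcΛ : ∀ g, c g ∈ Λ) (hco : Coco Λ)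
    (Ed : (Cm q → ℂ) → Cm q → Prop) (hEd : PerDiv Λ Ed) (hne : (zs Ed).Nonempty)
    (hcrit : ∀ y, F y ∈ zs Ed → ¬ Reg (n := n) p F y)
    (hno : ∀ v : Cm q, (∀ s : ℂ, ∀ x ∈ zs Ed, x + s • v ∈ zs Ed) → v = 0) :
    ∃ (m k : ℕ) (v : E → Chart n X → (Fin q → Cm n) → EuclideanSpace ℂ (Fin (k + 1))), 1 ≤ q ∧
      1 ≤ m ∧ HForm n q m p (EuclideanSpace ℂ (Fin (k + 1))) v ∧
      (∀ (g : Γ) (y : E) (e : Chart n X), At e (p y) → ∀ ξ, v (g • y) e ξ = v y e ξ) ∧
      (∀ y, Reg (n := n) p F y → ∃ γ, FormAt p F m v y γ) ∧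
      ∃ y, Reg (n := n) p F y ∧ ∃ γ, FormAt p F m v y γ ∧ ImmAt γ (F y) := by
  obtain ⟨B, hB⟩ := hP.hol
  obtain ⟨Θ, hΘ⟩ := exists_theta potStmt hEd hco
  -- `q ≥ 1`
  have hq : 1 ≤ q := by
    by_contra hq0
    have hq0' : q = 0 := by omega
    subst hq0'
    obtain ⟨z, hz⟩ := hΘ.ne
    obtain ⟨z', hz'⟩ := hne
    exact hz (by rw [Subsingleton.elim z z']; exact hz')
  obtain ⟨y₀, hy₀⟩ := hex
  have hz₀ : F y₀ ∉ zs Ed := fun h => hcrit y₀ h hy₀
  obtain ⟨k, a, b, ha0, hb0, hab⟩ := exists_fin hΘ hno hz₀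
  set R : Set E := {y | Reg (n := n) p F y} with hR
  have hRo : IsOpen R := reg_open hp.cov hB
  have hRd : Dense R := reg_dense hq hp.cov hB ⟨y₀, hy₀⟩
  have hRr : ∀ y ∈ R, Reg (n := n) p F y := fun y hy => hy
  have hRg : ∀ (g : Γ) (y : E), g • y ∈ R ↔ y ∈ R := fun g y => hP.reg_smul_iff hp g y
  have hg : ∀ g : Γ, ∃ a, ∀ y, F (g • y) = F y + a := fun g => ⟨c g, hP.equiv g⟩
  have hRΘ : ∀ y ∈ R, Θ (F y) ≠ 0 := fun y hy h => hcrit y ((hΘ.zero _).1 h) hy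
  set u : E → EuclideanSpace ℂ (Fin (k + 1)) := fun y => gam Θ a b (F y) with hu
  have hper : ∀ l ∈ Λ, ∀ t, gam Θ a b (t + l) = gam Θ a b t := by
    intro l hl t
    unfold gam
    congr 1
    funext i
    exact phi3_per hΘ hl _ _ _
  have hU : ∀ g : Γ, ∀ y ∈ R, u (g • y) =
      (LinearIsometry.id : EuclideanSpace ℂ (Fin (k + 1)) →ₗᵢ[ℂ] _) (u y) := by
    intro g y _
    show gam Θ a b (F (g • y)) = gam Θ a b (F y)
    rw [hP.equiv, hper _ (hcΛ g)]
  have hΘa : ∀ z, AnalyticAt ℂ Θ z := fun z =>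
    Vale.Agent.P268.analyticAt_of_differentiableOn isOpen_univ hΘ.diff.differentiableOn (mem_univ z)
  have hΦa : ∀ i z, AnalyticAt ℂ (Phi3 Θ (a i) (b i)) z := fun i z =>
    Vale.Agent.P268.analyticAt_of_differentiableOn isOpen_univ
      (phi3_diff hΘ.diff (a i) (b i)).differentiableOn (mem_univ z)
  have hGF : GF n p F R u := by
    refine ⟨fun y hy => ⟨gam Θ a b, gam_analytic hΘ.diff a b (hRΘ y hy),
      Eventually.of_forall fun y' _ => rfl⟩, fun y e he => ?_⟩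
    obtain ⟨ε, hε, hyε, -, -⟩ := exists_ch_at hp.cov he univ_mem
    have hz : e (p y) = ε y := (hε.eq y hyε).symm
    have hFa : AnalyticAt ℂ (F ∘ ε.symm) (e (p y)) := by
      rw [hz]
      exact IsCh.analytic hε hB _ (ε.map_source hyε)
    refine ⟨fun z => Θ ((F ∘ ε.symm) z) ^ 3,
      fun z => WithLp.toLp 2 fun i => Phi3 Θ (a i) (b i) ((F ∘ ε.symm) z), ?_, ?_, ?_, ?_⟩
    · exact ((hΘa _).fun_comp hFa).pow 3
    · exact ((PiLp.continuousLinearEquiv 2 ℂ fun _ : Fin (k + 1) =>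
        ℂ).symm.toContinuousLinearMap.analyticAt _).comp
        (AnalyticAt.pi fun i => (hΦa i _).fun_comp hFa)
    · intro h0
      rw [← IsCh.map_nhds hε hyε] at h0
      have h1 : ∀ᶠ y' in 𝓝 y, Θ ((F ∘ ε.symm) (e (p y'))) ^ 3 = 0 := h0
      obtain ⟨y', hy', h2, h3⟩ := (mem_closure_iff_frequently.1 (hRd y)).and_eventually
        (h1.and (ε.open_source.mem_nhds hyε)) |>.exists
      rw [← hε.eq _ h3, Function.comp_apply, ε.left_inv h3] at h2
      exact hRΘ y' hy' (pow_eq_zero_iff (n := 3) (by norm_num) |>.1 h2)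
    · filter_upwards [ε.open_source.mem_nhds hyε] with y' h3 hy'
      rw [← hε.eq _ h3, Function.comp_apply, ε.left_inv h3]
      show Θ (F y') ^ 3 • WithLp.toLp 2 (fun i => Phi3 Θ (a i) (b i) (F y') * (Θ (F y') ^ 3)⁻¹) = _
      rw [← WithLp.toLp_smul]
      congr 1
      funext i
      rw [Pi.smul_apply, smul_eq_mul]
      have h4 : Θ (F y') ^ 3 ≠ 0 := pow_ne_zero 3 (hRΘ y' hy')
      rw [mul_comm (Phi3 Θ (a i) (b i) (F y')), ← mul_assoc, mul_inv_cancel₀ h4, one_mul]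
  obtain ⟨M₀, hM₀⟩ := ext_all hp hB hRo hRd hRr hRg hg hGF fun g => ⟨LinearIsometry.id, hU g⟩
  have hM := hM₀ (M₀ + 1) (Nat.le_succ _)
  have hv := hform_vl hp hB hRd hRg hg (fun g => ⟨LinearIsometry.id, hU g⟩) hM
  have hform : ∀ y, Reg (n := n) p F y →
      FormAt (n := n) p F (M₀ + 1) (vl p F R u (M₀ + 1)) y (gam Θ a b) := by
    intro y hy
    refine ⟨gam_analytic hΘ.diff a b (hRΘ y hy), ?_⟩
    filter_upwards [hRo.mem_nhds hy] with y' h2 e hey ξ
    exact vl_mem hp.cov hRd hey (hM y' e hey) h2 ξ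
  refine ⟨M₀ + 1, k, vl p F R u (M₀ + 1), hq, by omega, hv, ?_, fun y hy => ⟨_, hform y hy⟩, y₀,
    hy₀, _, hform y₀ hy₀, ?_⟩
  · intro g y e he ξ
    exact vl_smul hp hB hRd hRg (hP.equiv g) (hU g) hM he ξ
  · -- the immersion
    have hγa : AnalyticAt ℂ (gam Θ a b) (F y₀) := gam_analytic hΘ.diff a b (hRΘ y₀ hy₀)
    have hproj : ∀ i (η : Cm q), fderiv ℂ (fun z => Phi3 Θ (a i) (b i) z * (Θ z ^ 3)⁻¹) (F y₀) η =
        (fderiv ℂ (gam Θ a b) (F y₀) η) i := by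
      intro i η
      let L : EuclideanSpace ℂ (Fin (k + 1)) →L[ℂ] ℂ := (ContinuousLinearMap.proj i).comp
        (PiLp.continuousLinearEquiv 2 ℂ fun _ : Fin (k + 1) => ℂ).toContinuousLinearMap
      have h4 : fderiv ℂ (fun a' => L (gam Θ a b a')) (F y₀) =
          L.comp (fderiv ℂ (gam Θ a b) (F y₀)) :=
        (L.hasFDerivAt.comp _ hγa.differentiableAt.hasFDerivAt).fderiv
      have h5 : (fun a' => L (gam Θ a b a')) = fun z => Phi3 Θ (a i) (b i) z * (Θ z ^ 3)⁻¹ := rfl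
      rw [h5] at h4
      rw [h4]
      rfl
    have hone : ∀ z, Θ z ≠ 0 → Phi3 Θ (a 0) (b 0) z * (Θ z ^ 3)⁻¹ = 1 := by
      intro z hz
      rw [ha0, hb0]
      unfold Phi3
      rw [sub_zero, add_zero, add_zero]
      field_simp
    have h0 : gam Θ a b (F y₀) 0 = 1 := hone _ (hRΘ y₀ hy₀)
    refine ⟨?_, ?_⟩
    · intro h1
      rw [h1] at h0
      simp at h0
    · intro η c' hη
      have h1 : c' = 0 := by
        have h2 := hproj 0 η
        rw [hη] at h2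
        have h3 : fderiv ℂ (fun z => Phi3 Θ (a 0) (b 0) z * (Θ z ^ 3)⁻¹) (F y₀) = 0 := by
          have h4 : (fun z => Phi3 Θ (a 0) (b 0) z * (Θ z ^ 3)⁻¹) =ᶠ[𝓝 (F y₀)] fun _ => 1 := by
            filter_upwards [hΘ.diff.continuous.continuousAt.eventually_ne (hRΘ y₀ hy₀)]
              with z hz using hone z hz
          rw [h4.fderiv_eq]
          exact fderiv_const_apply _
        rw [h3] at h2
        have h5 : (c' • gam Θ a b (F y₀)) 0 = c' * gam Θ a b (F y₀) 0 := rfl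
        rw [h5, h0, mul_one] at h2
        exact h2.symm
      apply hab η
      intro i
      rw [hproj i η, hη, h1, zero_smul]
      rfl

end Vale.Agent.P284.H224.N
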