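import Vale.Agent.P284.H224.TailEq
import Vale.Agent.P284.H885.Cov
import Vale.Agent.P284.H174.EqvG

/-!
# P284 (helper224), program N: forms over a finite étale covering `Y → X`, in the charts of `X`; the sum
of the translates

`p : E → X` Galois with group `Γ`, `G` a normal subgroup of finite index, `q : E → Y = E / G`,
`π : Y → X`.  `fl π q v` is the form `v` (given in the charts of `Y`) in the charts of `X`; `tot G v` is
the family of the translates of `v` by representatives of `Γ / G`.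
-/

open scoped Manifold ContDiff Topology ENNReal
open Filter Set Metric MeasureTheory

noncomputable section

namespace Vale.Agent.P284.H224.N

open Vale.Agent.P272.K Vale.Agent.P284.H894.W Vale.Agent.P284.H894.G Vale.Agent.P284.H10
  Vale.Agent.P284.H573 Vale.Agent.P284.H494 Vale.Agent.P284.H837 Vale.Agent.P284.H885

/-- a form without invariance of the norm -/
structure PForm (n R m : ℕ) {X E : Type} [TopologicalSpace X] [ChartedSpace (Cm n) X]
    [TopologicalSpace E] (p : E → X) (H : Type) [NormedAddCommGroup H] [InnerProductSpace ℂ H]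
    (v : E → Chart n X → (Fin R → Cm n) → H) : Prop where
  hol : ∀ y e, At e (p y) → ∃ F : Cm n × (Fin R → Cm n) → H,
    (∀ ξ, AnalyticAt ℂ F (e (p y), ξ)) ∧ ∀ᶠ y' in 𝓝 y, ∀ ξ, v y' e ξ = F (e (p y'), ξ)
  change : ∀ y e e', At e (p y) → At e' (p y) → ∀ ξ, v y e ξ =
    v y e' (fun i => fderiv ℂ (fun z => e' (e.symm z)) (e (p y)) (ξ i))
  det : ∀ y e, At e (p y) → ∀ (A : Matrix (Fin R) (Fin R) ℂ) (ξ : Fin R → Cm n),
    v y e (fun i => ∑ j, A i j • ξ j) = A.det ^ m • v y e ξ

section fl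

variable {n : ℕ} {X Y : Type} [TopologicalSpace X] [TopologicalSpace Y]
  [ChartedSpace (Cm n) X] [ChartedSpace (Cm n) Y] {π : Y → X}
  {E : Type} [TopologicalSpace E] {p : E → X} {q : E → Y}
  {H : Type} [NormedAddCommGroup H] [InnerProductSpace ℂ H] {R m : ℕ}
  {v : E → Chart n Y → (Fin R → Cm n) → H}

open Classical in
/-- the form `v`, given in the charts of `Y`, in the charts of `X` -/
def fl (π : Y → X) (q : E → Y) (v : E → Chart n Y → (Fin R → Cm n) → H) (y : E) (e : Chart n X)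
    (ξ : Fin R → Cm n) : H :=
  if h : ∃ e' : Chart n Y, At e' (q y) ∧ IsBranch π e' e then v y h.choose ξ else 0

theorem fl_eq (hπ : Etale n π) (hch : ∀ y e e', At e (q y) → At e' (q y) → ∀ ξ, v y e ξ =
      v y e' (fun i => fderiv ℂ (fun z => e' (e.symm z)) (e (q y)) (ξ i)))
    {y : E} {e : Chart n X} {e' : Chart n Y} (he' : At e' (q y)) (hb : IsBranch π e' e)
    (ξ : Fin R → Cm n) : fl π q v y e ξ = v y e' ξ := by
  have hex : ∃ e' : Chart n Y, At e' (q y) ∧ IsBranch π e' e := ⟨e', he', hb⟩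
  rw [fl, dif_pos hex, hch y _ e' hex.choose_spec.1 he' ξ,
    hex.choose_spec.2.fderiv_transition hb hex.choose_spec.1.2]
  congr 1
  funext i
  have h1 : (fun z => e (e.symm z)) =ᶠ[𝓝 (e (π (q y)))] fun z => z := by
    have h2 : e (π (q y)) ∈ e.target := e.map_source (Etale.at_branch hb he').2
    filter_upwards [e.open_target.mem_nhds h2] with z hz using e.right_inv hz
  rw [h1.fderiv_eq, fderiv_fun_id]
  rfl

/-- the form in the charts of `X` -/
theorem PForm.fl (hπ : Etale n π) (hq : Continuous q) (hpq : ∀ y, π (q y) = p y)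
    (hv : PForm n R m q H v) : PForm n R m p H (fl π q v) where
  hol y e he := by
    rw [← hpq] at he
    obtain ⟨e', he', hb⟩ := hπ.exists_branch he
    obtain ⟨F, hF, hF'⟩ := hv.hol y e' he'
    refine ⟨F, fun ξ => ?_, ?_⟩
    · rw [← hpq, ← hb.apply]; exact hF ξ
    · filter_upwards [hF', hq.continuousAt.eventually (e'.open_source.mem_nhds he'.2)]
        with y' h1 h2 ξ
      rw [fl_eq hπ hv.change ⟨he'.1, h2⟩ hb, h1, hb.apply, hpq]
  change y e e₁ he he₁ ξ := by
    rw [← hpq] at he he₁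
    obtain ⟨e', he', hb⟩ := hπ.exists_branch he
    obtain ⟨e₁', he₁', hb₁⟩ := hπ.exists_branch he₁
    rw [fl_eq hπ hv.change he' hb, fl_eq hπ hv.change he₁' hb₁, hv.change y e' e₁' he' he₁',
      hb.fderiv_transition hb₁ he'.2, hpq]
  det y e he A ξ := by
    rw [← hpq] at he
    obtain ⟨e', he', hb⟩ := hπ.exists_branch he
    rw [fl_eq hπ hv.change he' hb, fl_eq hπ hv.change he' hb, hv.det y e' he']

/-- the norm of the values over one point of `Y` -/
theorem norm_fl (hπ : Etale n π) (hpq : ∀ y, π (q y) = p y) (hv : PForm n R m q H v)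
    (hinv : ∀ y y₁ e, At e (q y) → q y = q y₁ → ∀ ξ, ‖v y e ξ‖ = ‖v y₁ e ξ‖)
    {y y₁ : E} {e : Chart n X} (he : At e (p y)) (hy : q y = q y₁) (ξ : Fin R → Cm n) :
    ‖fl π q v y e ξ‖ = ‖fl π q v y₁ e ξ‖ := by
  rw [← hpq] at he
  obtain ⟨e', he', hb⟩ := hπ.exists_branch he
  rw [fl_eq hπ hv.change he' hb, fl_eq hπ hv.change (hy ▸ he') hb, hinv y y₁ e' he' hy]

/-- elements which fix `v` fix the form in the charts of `X` -/
theorem fl_smul {Γ : Type} [Group Γ] [MulAction Γ E] (hπ : Etale n π) (hpq : ∀ y, π (q y) = p y)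
    (hv : PForm n R m q H v) {g : Γ} {y : E} (hy : q (g • y) = q y)
    (hg : ∀ e, At e (q y) → ∀ ξ, v (g • y) e ξ = v y e ξ) {e : Chart n X} (he : At e (p y))
    (ξ : Fin R → Cm n) : fl π q v (g • y) e ξ = fl π q v y e ξ := by
  rw [← hpq] at he
  obtain ⟨e', he', hb⟩ := hπ.exists_branch he
  rw [fl_eq hπ hv.change (y := g • y) (hy.symm ▸ he') hb, fl_eq hπ hv.change he' hb, hg e' he']

theorem _root_.Vale.Agent.P284.H573.HForm.pForm {X : Type} [TopologicalSpace X]
    [ChartedSpace (Cm n) X] {p : E → X} {v : E → Chart n X → (Fin R → Cm n) → H}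
    (hv : HForm n R m p H v) : PForm n R m p H v :=
  ⟨hv.hol, hv.change, hv.det⟩

end fl

section tot

variable {n : ℕ} {X : Type} [TopologicalSpace X] [ChartedSpace (Cm n) X]
  {E : Type} [TopologicalSpace E] {p : E → X} {Γ : Type} [Group Γ] [MulAction Γ E]
  {H : Type} [NormedAddCommGroup H] [InnerProductSpace ℂ H] {R m : ℕ}
  {v : E → Chart n X → (Fin R → Cm n) → H}

/-- translates -/
theorem PForm.smul (hp : IsGalois Γ p) (hv : PForm n R m p H v) (g : Γ) :
    PForm n R m p H (fun y e ξ => v (g • y) e ξ) where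
  hol y e he := by
    obtain ⟨F, hF, hF'⟩ := hv.hol (g • y) e (by rw [p_smul' hp]; exact he)
    refine ⟨F, fun ξ => ?_, ?_⟩
    · have := hF ξ
      rwa [p_smul' hp] at this
    · have h1 : Tendsto (fun y' => g • y') (𝓝 y) (𝓝 (g • y)) := (hp.cont g).tendsto y
      filter_upwards [h1.eventually hF'] with y' h2 ξ
      rw [h2, p_smul' hp]
  change y e e' he he' ξ := by
    rw [hv.change (g • y) e e' (by rw [p_smul' hp]; exact he) (by rw [p_smul' hp]; exact he'),
      p_smul' hp]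
  det y e he A ξ := hv.det (g • y) e (by rw [p_smul' hp]; exact he) A ξ

/-- finite families -/
theorem PForm.pi {ι : Type} [Fintype ι] {v : ι → E → Chart n X → (Fin R → Cm n) → H}
    (h : ∀ i, PForm n R m p H (v i)) :
    PForm n R m p (PiLp 2 fun _ : ι => H) fun y e ξ => WithLp.toLp 2 fun i => v i y e ξ where
  hol y e he := by
    choose F hF hv using fun i => (h i).hol y e he
    refine ⟨fun x => WithLp.toLp 2 fun i => F i x, fun ξ => ?_, ?_⟩
    · exact ((PiLp.continuousLinearEquiv 2 ℂ fun _ : ι => H).symm.toContinuousLinearMap.analyticAt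
        _).comp (AnalyticAt.pi fun i => hF i ξ)
    · filter_upwards [eventually_all.2 hv] with y' a ξ
      congr 1
      funext i
      exact a i ξ
  change y e e' he he' ξ := by
    congr 1
    funext i
    exact (h i).change y e e' he he' ξ
  det y e he A ξ := by
    have h1 : (fun i => v i y e fun i => ∑ j, A i j • ξ j) = A.det ^ m • fun i => v i y e ξ := by
      funext i
      exact (h i).det y e he A ξ
    rw [h1]
    rfl

variable (G : Subgroup Γ) [Fintype (Γ ⧸ G)]

/-- the family of the translates of `u : E → W` -/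
def totF {W : Type} (u : E → W) (y : E) : PiLp 2 (fun _ : Γ ⧸ G => W) :=
  WithLp.toLp 2 fun i => u (i.out • y)

/-- the family of the translates of the form `v` -/
def tot (v : E → Chart n X → (Fin R → Cm n) → H) (y : E) (e : Chart n X) (ξ : Fin R → Cm n) :
    PiLp 2 (fun _ : Γ ⧸ G => H) :=
  WithLp.toLp 2 fun i => v (i.out • y) e ξ

variable {G}

omit [Fintype (Γ ⧸ G)] in
/-- `i.out * g = k * j.out` with `k ∈ G`, `j = i g` -/
theorem out_mul [G.Normal] (i : Γ ⧸ G) (g : Γ) :
    ∃ k ∈ G, i.out * g = k * (i * (g : Γ ⧸ G)).out := by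
  refine ⟨i.out * g * ((i * (g : Γ ⧸ G)).out)⁻¹, ?_, by group⟩
  have h1 : ((i.out * g * ((i * (g : Γ ⧸ G)).out)⁻¹ : Γ) : Γ ⧸ G) = 1 := by
    rw [QuotientGroup.mk_mul, QuotientGroup.mk_mul, QuotientGroup.mk_inv, QuotientGroup.out_eq',
      QuotientGroup.out_eq', mul_inv_cancel]
  exact (QuotientGroup.eq_one_iff _).1 h1

/-- the norm of the sum of the translates is invariant -/
theorem norm_tot [G.Normal] {f : E → ℝ} (hf : ∀ g ∈ G, ∀ y, f (g • y) = f y) (g : Γ) (y : E) :
    ∑ i : Γ ⧸ G, f (i.out • g • y) = ∑ i : Γ ⧸ G, f (i.out • y) := by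
  refine Fintype.sum_equiv (Equiv.mulRight (g : Γ ⧸ G)) _ _ fun i => ?_
  obtain ⟨k, hk, h1⟩ := out_mul i g
  rw [← mul_smul, h1, mul_smul, hf k hk]
  rfl

/-- the sum of the translates is a form on the covering of `X` -/
theorem hform_tot [G.Normal] (hp : IsGalois Γ p) (hv : PForm n R m p H v)
    (hinv : ∀ g ∈ G, ∀ y e, At e (p y) → ∀ ξ, ‖v (g • y) e ξ‖ = ‖v y e ξ‖) :
    HForm n R m p (PiLp 2 fun _ : Γ ⧸ G => H) (tot G v) := by
  have h1 : PForm n R m p (PiLp 2 fun _ : Γ ⧸ G => H) (tot G v) :=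
    PForm.pi fun i => hv.smul hp i.out
  refine ⟨h1.hol, h1.change, h1.det, fun y y₁ e he hyy ξ => ?_⟩
  obtain ⟨g, rfl⟩ := (hp.orb y y₁).1 hyy
  rw [PiLp.norm_eq_of_L2, PiLp.norm_eq_of_L2]
  congr 1
  show ∑ i : Γ ⧸ G, ‖v (i.out • y) e ξ‖ ^ 2 = ∑ i : Γ ⧸ G, ‖v (i.out • g • y) e ξ‖ ^ 2
  symm
  refine Fintype.sum_equiv (Equiv.mulRight (g : Γ ⧸ G)) _ _ fun i => ?_
  obtain ⟨k, hk, h2⟩ := out_mul i g
  rw [← mul_smul, h2, mul_smul, hinv k hk _ e (by rw [p_smul' hp]; exact he)]
  rfl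

omit [TopologicalSpace E] [ChartedSpace (Cm n) X] in
/-- elements all whose conjugates fix `v` fix the sum of the translates -/
theorem tot_smul [TopologicalSpace E] {S : Subgroup Γ} [S.Normal] {y : E} {e : Chart n X}
    {ξ : Fin R → Cm n} (hS : ∀ g ∈ S, ∀ z, p z = p y → v (g • z) e ξ = v z e ξ)
    (hpΓ : ∀ (g : Γ) (z : E), p (g • z) = p z) {g : Γ} (hg : g ∈ S) :
    tot G v (g • y) e ξ = tot G v y e ξ := by
  unfold tot
  congr 1
  funext i
  have h1 : i.out • g • y = (i.out * g * i.out⁻¹) • i.out • y := by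
    rw [← mul_smul, ← mul_smul]
    congr 1
    group
  rw [h1, hS _ (Subgroup.Normal.conj_mem inferInstance g hg i.out) _ (hpΓ _ _)]

end tot

end Vale.Agent.P284.H224.N
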