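import Vale.Agent.P284.H224.N.Tot

/-!
# P284 (helper224), program N: the local normal form `(dt)^m γ(t)` of a form
-/

open scoped Manifold ContDiff Topology ENNReal
open Filter Set Metric MeasureTheory

noncomputable section

namespace Vale.Agent.P284.H224.N

open Vale.Agent.P272.K Vale.Agent.P284.H894.W Vale.Agent.P284.H894.G Vale.Agent.P284.H10
  Vale.Agent.P284.H573 Vale.Agent.P284.H494 Vale.Agent.P284.H837 Vale.Agent.P284.H885
  Vale.Agent.P284.H672 Vale.Agent.P284.H224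

section

variable {n : ℕ} {X : Type} [TopologicalSpace X] [ChartedSpace (Cm n) X]
  {E : Type} [TopologicalSpace E] {p : E → X} {Γ : Type} [Group Γ] [MulAction Γ E]
  {w : Chart n X → Cm n → Matrix (Fin n) (Fin n) ℂ} {r m : ℕ} {t : E → Cm r} {B : ℝ}
  {H : Type} [NormedAddCommGroup H] [InnerProductSpace ℂ H]
  {v : E → Chart n X → (Fin r → Cm n) → H} {y : E} {γ : Cm r → H}

/-- near `y` the form `v` is `(dt)^m γ(t)` -/
def FormAt (p : E → X) (t : E → Cm r) (m : ℕ) (v : E → Chart n X → (Fin r → Cm n) → H) (y : E)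
    (γ : Cm r → H) : Prop :=
  AnalyticAt ℂ γ (t y) ∧ ∀ᶠ y' in 𝓝 y, ∀ e : Chart n X, At e (p y') → ∀ ξ,
    v y' e ξ = dt p t y' e ξ ^ m • γ (t y')

open Classical in
/-- the minors in the charts of `Y` and of `X` -/
theorem dt_branch {Y : Type} [TopologicalSpace Y] [ChartedSpace (Cm n) Y] {π : Y → X} {qY : E → Y}
    (hpq : ∀ y, π (qY y) = p y) {e' : Chart n Y} {e : Chart n X} (hb : IsBranch π e' e)
    (ξ : Fin r → Cm n) : dt qY t y e' ξ = dt p t y e ξ := by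
  have h1 : ∀ y, e' (qY y) = e (p y) := fun y => by rw [hb.apply, hpq]
  have h2 : H494.TD qY t y e' = H494.TD p t y e := by
    have key : ∀ u₁ u₂ : E → Cm n, u₁ = u₂ →
        (if hx : ∃ f : Cm n → Cm r, AnalyticAt ℂ f (u₁ y) ∧ ∀ᶠ y' in 𝓝 y, t y' = f (u₁ y')
          then fderiv ℂ hx.choose (u₁ y) else 0) =
        if hx : ∃ f : Cm n → Cm r, AnalyticAt ℂ f (u₂ y) ∧ ∀ᶠ y' in 𝓝 y, t y' = f (u₂ y')
          then fderiv ℂ hx.choose (u₂ y) else 0 := by
      rintro u₁ _ rfl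
      rfl
    exact key (fun y => e' (qY y)) (fun y => e (p y)) (funext h1)
  rw [dt, dt, h2]

/-- from the charts of `Y` to the charts of `X` -/
theorem FormAt.fl {Y : Type} [TopologicalSpace Y] [ChartedSpace (Cm n) Y] {π : Y → X} {qY : E → Y}
    (hπ : Etale n π) (hpq : ∀ y, π (qY y) = p y) {v : E → Chart n Y → (Fin r → Cm n) → H}
    (hch : ∀ y e e', At e (qY y) → At e' (qY y) → ∀ ξ, v y e ξ =
      v y e' (fun i => fderiv ℂ (fun z => e' (e.symm z)) (e (qY y)) (ξ i)))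
    (h : FormAt qY t m v y γ) : FormAt p t m (N.fl π qY v) y γ := by
  refine ⟨h.1, ?_⟩
  filter_upwards [h.2] with y' h1 e he ξ
  rw [← hpq] at he
  obtain ⟨e', he', hb⟩ := hπ.exists_branch he
  rw [fl_eq hπ hch he' hb, h1 e' he', dt_branch hpq hb]

/-- translates -/
theorem FormAt.smul (hp : IsGalois Γ p) (ht : HolB p w t B) {g : Γ} {A : Cm r ≃L[ℂ] Cm r}
    {b : Cm r} (hA : ∀ y, t (g • y) = A (t y) + b) {δ : ℂ} (hδ : ∀ v : Fin r → Cm r,
      (Matrix.of fun i j => A (v j) i).det = δ * (Matrix.of fun i j => v j i).det)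
    (h : FormAt p t m v (g • y) γ) :
    FormAt p t m (fun y e ξ => v (g • y) e ξ) y (fun s => δ ^ m • γ (A s + b)) := by
  refine ⟨?_, ?_⟩
  · have h1 := h.1
    rw [hA] at h1
    exact analyticAt_const.smul (h1.fun_comp_of_eq
      (((A : Cm r →L[ℂ] Cm r).analyticAt _).add analyticAt_const) rfl)
  · filter_upwards [((hp.cont g).tendsto y).eventually h.2] with y' h1 e he ξ
    rw [h1 e (by rwa [p_smul' hp]), dt_aff hp ht hA hδ he, hA, mul_pow, smul_smul, mul_comm]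

/-- finite families -/
theorem FormAt.pi {ι : Type} [Fintype ι] {v : ι → E → Chart n X → (Fin r → Cm n) → H}
    {γ : ι → Cm r → H} (h : ∀ i, FormAt p t m (v i) y (γ i)) :
    FormAt p t m (fun y e ξ => (WithLp.toLp 2 fun i => v i y e ξ : PiLp 2 fun _ : ι => H)) y
      (fun s => WithLp.toLp 2 fun i => γ i s) := by
  refine ⟨?_, ?_⟩
  · exact ((PiLp.continuousLinearEquiv 2 ℂ fun _ : ι => H).symm.toContinuousLinearMap.analyticAt
      _).comp (AnalyticAt.pi fun i => (h i).1)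
  · filter_upwards [eventually_all.2 fun i => (h i).2] with y' h1 e he ξ
    rw [← WithLp.toLp_smul]
    congr 1
    funext i
    exact h1 i e he ξ

omit [TopologicalSpace E] [MulAction Γ E] [Group Γ] [TopologicalSpace X] [ChartedSpace (Cm n) X] in
/-- immersions: composition with an affine isomorphism -/
theorem immAt_aff {A : Cm r ≃L[ℂ] Cm r} {b s : Cm r} {δ : ℂ} (hδ : δ ≠ 0)
    (hγ : ImmAt γ (A s + b)) : ImmAt (fun s => δ • γ (A s + b)) s := by
  have hd : ∀ η, fderiv ℂ (fun s => δ • γ (A s + b)) s η = δ • fderiv ℂ γ (A s + b) (A η) := by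
    intro η
    have h0 : (fun s => δ • γ (A s + b)) = δ • fun s => γ (A s + b) := rfl
    rw [h0, fderiv_const_smul_field, Pi.smul_apply]
    have h1 : fderiv ℂ (fun s => γ (A s + b)) s = (fderiv ℂ γ (A s + b)).comp (A : Cm r →L[ℂ] Cm r) := by
      have h2 : (fun s => γ (A s + b)) = (fun x => γ (x + b)) ∘ A := rfl
      rw [h2, A.comp_right_fderiv, fderiv_comp_add_right]
    rw [h1]
    rfl
  refine ⟨smul_ne_zero hδ hγ.1, fun η c hη => ?_⟩
  rw [hd, smul_comm] at hη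
  have h1 := hγ.2 (A η) c (smul_right_injective _ hδ hη)
  exact A.injective (by rw [h1, map_zero])

/-- immersions: one component is enough -/
theorem immAt_pi {ι : Type} [Fintype ι] {γ : ι → Cm r → H} {s : Cm r}
    (hγ : ∀ i, AnalyticAt ℂ (γ i) s) {i : ι} (hi : ImmAt (γ i) s) :
    ImmAt (fun s => (WithLp.toLp 2 fun i => γ i s : PiLp 2 fun _ : ι => H)) s := by
  have ha : AnalyticAt ℂ (fun s => (WithLp.toLp 2 fun i => γ i s : PiLp 2 fun _ : ι => H)) s :=
    ((PiLp.continuousLinearEquiv 2 ℂ fun _ : ι => H).symm.toContinuousLinearMap.analyticAt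
      _).comp (AnalyticAt.pi hγ)
  let L : PiLp 2 (fun _ : ι => H) →L[ℂ] H := (ContinuousLinearMap.proj i).comp
    (PiLp.continuousLinearEquiv 2 ℂ fun _ : ι => H).toContinuousLinearMap
  have hL : ∀ x, L x = x i := fun x => rfl
  have h4 : fderiv ℂ (fun a => L ((WithLp.toLp 2 fun i => γ i a : PiLp 2 fun _ : ι => H))) s =
      L.comp (fderiv ℂ (fun s => (WithLp.toLp 2 fun i => γ i s : PiLp 2 fun _ : ι => H)) s) :=
    (L.hasFDerivAt.comp _ ha.differentiableAt.hasFDerivAt).fderiv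
  have h5 : (fun a => L ((WithLp.toLp 2 fun i => γ i a : PiLp 2 fun _ : ι => H))) = γ i := rfl
  rw [h5] at h4
  refine ⟨fun h0 => hi.1 ?_, fun η c hη => hi.2 η c ?_⟩
  · have h1 := congrArg L h0
    rw [map_zero] at h1
    exact h1
  · rw [h4, ContinuousLinearMap.comp_apply, hη, ContinuousLinearMap.map_smul]
    rfl

/-- the normal form -/
theorem FormAt.nff [IsManifold 𝓘(ℂ, Cm n) ω X] (hp : IsCoveringMap p) (ht : HolB p w t B)
    (h : FormAt p t m v y γ) (hr : Reg (n := n) p t y) (hi : ImmAt γ (t y)) :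
    ∃ y₀ e b γ t', NFF m p v t y₀ e b γ t' := by
  obtain ⟨e, ε, hε, hyε, -, -⟩ := exists_ch (n := n) hp y univ_mem
  have hz : e (p y) = ε y := (hε.eq y hyε).symm
  have hzt : ε y ∈ ε.target := ε.map_source hyε
  have hTa := IsCh.analytic hε ht
  have hbz : (t ∘ ε.symm) (e (p y)) = t y := by
    rw [hz, Function.comp_apply, ε.left_inv hyε]
  refine ⟨y, e, t ∘ ε.symm, γ, id, ⟨?_, analyticAt_id, hε.ev (F := t) hyε⟩⟩
  refine ⟨hε.at hyε, ?_, ?_, ?_, ?_, ?_⟩
  · rw [hz]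
    exact hTa _ hzt
  · rw [hz]
    exact (hε.reg_iff hp ht hyε).1 hr
  · rw [hbz]
    exact h.1
  · rw [hbz]
    exact hi
  · filter_upwards [h.2, ε.open_source.mem_nhds hyε] with y' h2 h3 ξ
    have hzy : e (p y') = ε y' := (hε.eq y' h3).symm
    have hby : (t ∘ ε.symm) (e (p y')) = t y' := by
      rw [hzy, Function.comp_apply, ε.left_inv h3]
    rw [hby, hzy, ← dt_ch hp ht hε h3]
    exact h2 e (hε.at h3) ξ

/-- **the sum of the translates has a normal form** -/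
theorem nff_tot [IsManifold 𝓘(ℂ, Cm n) ω X] {G : Subgroup Γ} [Fintype (Γ ⧸ G)] [G.Normal]
    (hp : IsGalois Γ p) (ht : HolB p w t B) (hT : Twi Γ t) {R : Set E} (hR : ∀ (g : Γ) (y : E), y ∈ R → g • y ∈ R)
    (hRr : ∀ y ∈ R, Reg (n := n) p t y)
    (hf : ∀ y ∈ R, ∃ γ, FormAt p t m v y γ)
    (hi : ∃ y ∈ R, ∃ γ, FormAt p t m v y γ ∧ ImmAt γ (t y)) :
    ∃ y₀ e b γ t', NFF m p (tot G v) t y₀ e b γ t' := by
  obtain ⟨y₁, hy₁, γ₁, hγ₁, hi₁⟩ := hi
  set k : Γ := (1 : Γ ⧸ G).out with hk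
  set y₀ : E := k⁻¹ • y₁ with hy₀
  have hy₀R : y₀ ∈ R := hR _ _ hy₁
  have hky : k • y₀ = y₁ := by rw [hy₀, smul_inv_smul]
  have hex : ∀ i : Γ ⧸ G, ∃ γ, FormAt p t m v (i.out • y₀) γ ∧ (i = 1 → ImmAt γ (t (i.out • y₀))) := by
    intro i
    by_cases h1 : i = 1
    · subst h1
      rw [← hk, hky]
      exact ⟨γ₁, hγ₁, fun _ => hi₁⟩
    · obtain ⟨γ, hγ⟩ := hf _ (hR i.out y₀ hy₀R)
      exact ⟨γ, hγ, fun h => absurd h h1⟩
  choose γ hγ hγi using hex
  choose A b hA using fun i : Γ ⧸ G => hT i.out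
  choose δ hδ0 hδ using fun i : Γ ⧸ G => det_clm (A i)
  have h1 := FormAt.pi fun i : Γ ⧸ G => (hγ i).smul hp ht (hA i) (hδ i)
  have h2 := h1.nff hp.cov ht (hRr _ hy₀R) (immAt_pi (i := 1)
    (fun i => ((hγ i).smul hp ht (hA i) (hδ i)).1) (immAt_aff (pow_ne_zero m (hδ0 1)) (by
      rw [← hA 1 y₀]
      exact hγi 1 rfl)))
  exact h2

end

end Vale.Agent.P284.H224.N
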