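import Vale.Agent.P284.H213.MF.Mf
import Vale.Agent.P284.H494.Loc

/-!
# P284 (helper224), program N: the sum of the translates of a periodic divisor by finitely many affine
maps
-/

open scoped Manifold ContDiff Topology ENNReal
open Filter Set Metric

noncomputable section

namespace Vale.Agent.P284.H224.N

open Vale.Agent.P272.K Vale.Agent.P284.H494 Vale.Agent.P284.H279 Vale.Agent.P284.H213.MF

section

variable {q : ℕ} {ι : Type} [Fintype ι] {Λ : AddSubgroup (Cm q)} {Ed : (Cm q → ℂ) → Cm q → Prop}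
  {A : ι → (Cm q ≃L[ℂ] Cm q)} {b : ι → Cm q}

/-- the sum of the pull-backs of the divisor by the maps `x ↦ A i x + b i` -/
def EdS (Ed : (Cm q → ℂ) → Cm q → Prop) (A : ι → (Cm q ≃L[ℂ] Cm q)) (b : ι → Cm q)
    (θ : Cm q → ℂ) (x : Cm q) : Prop :=
  ∃ θ' : ι → Cm q → ℂ, (∀ i, Ed (θ' i) (A i x + b i)) ∧ θ = fun z => ∏ i, θ' i (A i z + b i)

omit [Fintype ι] in
theorem aff_an (i : ι) (x : Cm q) : AnalyticAt ℂ (fun z => A i z + b i) x :=
  ((A i : Cm q →L[ℂ] Cm q).analyticAt x).add analyticAt_const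

theorem perDiv_sym (h : PerDiv Λ Ed) (hΛ : ∀ i, ∀ l ∈ Λ, A i l ∈ Λ) : PerDiv Λ (EdS Ed A b) where
  ex x := by
    choose θ hθ using fun i : ι => h.ex (A i x + b i)
    exact ⟨_, θ, hθ, rfl⟩
  ana := by
    rintro _ x ⟨θ, hθ, rfl⟩
    exact Finset.analyticAt_fun_prod _ fun i _ => (h.ana _ _ (hθ i)).fun_comp_of_eq (aff_an i x) rfl
  ne := by
    rintro _ x ⟨θ, hθ, rfl⟩
    have ha : ∀ i, AnalyticAt ℂ (fun z => θ i (A i z + b i)) x := fun i =>
      (h.ana _ _ (hθ i)).fun_comp_of_eq (aff_an i x) rfl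
    have hn : ∀ i, ¬ ∀ᶠ z in 𝓝 x, θ i (A i z + b i) = 0 := by
      intro i h0
      refine h.ne _ _ (hθ i) ?_
      have ho : IsOpenMap fun z => A i z + b i :=
        ((A i).toHomeomorph.trans (Homeomorph.addRight (b i))).isOpenMap
      exact ho.nhds_le x h0
    have key : ∀ s : Finset ι, ¬ ∀ᶠ z in 𝓝 x, ∏ i ∈ s, θ i (A i z + b i) = 0 := by
      intro s
      classical
      induction s using Finset.induction_on with
      | empty =>
        intro h0
        obtain ⟨z, hz⟩ := h0.exists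
        rw [Finset.prod_empty] at hz
        exact one_ne_zero hz
      | insert i s hi ih =>
        simp only [Finset.prod_insert hi]
        exact mul_not_ev_zero (ha i) (Finset.analyticAt_fun_prod _ fun i _ => ha i) (hn i) ih
    exact key Finset.univ
  opn := by
    rintro _ x ⟨θ, hθ, rfl⟩
    have h1 : ∀ i, ∀ᶠ z in 𝓝 x, Ed (θ i) (A i z + b i) := fun i =>
      (aff_an (b := b) i x).continuousAt.eventually (h.opn _ _ (hθ i))
    filter_upwards [eventually_all.2 h1] with z hz using ⟨θ, hz, rfl⟩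
  unit := by
    rintro _ _ x ⟨θ, hθ, rfl⟩ ⟨θ', hθ', rfl⟩
    choose u hu hu0 hev using fun i => h.unit _ _ _ (hθ i) (hθ' i)
    refine ⟨fun z => ∏ i, u i (A i z + b i), Finset.analyticAt_fun_prod _ fun i _ =>
      (hu i).fun_comp_of_eq (aff_an i x) rfl, Finset.prod_ne_zero_iff.2 fun i _ => hu0 i, ?_⟩
    have h1 : ∀ i, ∀ᶠ z in 𝓝 x, θ i (A i z + b i) = u i (A i z + b i) * θ' i (A i z + b i) :=
      fun i => (aff_an (b := b) i x).continuousAt.eventually (hev i)
    filter_upwards [eventually_all.2 h1] with z hz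
    rw [← Finset.prod_mul_distrib]
    exact Finset.prod_congr rfl fun i _ => hz i
  per := by
    rintro _ x ⟨θ, hθ, rfl⟩ l hl
    refine ⟨fun i z => θ i (z - A i l), fun i => ?_, ?_⟩
    · have h1 := h.per _ _ (hθ i) (A i l) (hΛ i l hl)
      have h2 : A i (x + l) + b i = A i x + b i + A i l := by
        rw [map_add]; abel
      rwa [h2]
    · funext z
      refine Finset.prod_congr rfl fun i _ => ?_
      congr 1
      rw [map_sub]; abel

/-- the support -/
theorem mem_sym (h : PerDiv Λ Ed) {x : Cm q} :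
    x ∈ zs (EdS Ed A b) ↔ ∃ i, A i x + b i ∈ zs Ed := by
  constructor
  · rintro ⟨_, ⟨θ, hθ, rfl⟩, h0⟩
    obtain ⟨i, -, hi⟩ := Finset.prod_eq_zero_iff.1 h0
    exact ⟨i, θ i, hθ i, hi⟩
  · rintro ⟨i, hi⟩
    choose θ hθ using fun i : ι => h.ex (A i x + b i)
    refine ⟨_, ⟨θ, hθ, rfl⟩, ?_⟩
    exact Finset.prod_eq_zero (Finset.mem_univ i) ((zs_iff h (hθ i)).1 hi)

end

/-- directions: invariance under an affine map which leaves the support invariant -/
theorem dirs_inv {q : ℕ} {Λ : AddSubgroup (Cm q)} {Ed : (Cm q → ℂ) → Cm q → Prop}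
    (h : PerDiv Λ Ed) {A : Cm q ≃L[ℂ] Cm q} {b : Cm q}
    (hA : ∀ x, A x + b ∈ zs Ed ↔ x ∈ zs Ed) {v : Cm q} (hv : v ∈ dirs h) : A v ∈ dirs h := by
  refine dirs_of h fun s x hx => ?_
  have h1 : A (A.symm (x - b)) + b = x := by
    rw [A.apply_symm_apply, sub_add_cancel]
  have h2 : A.symm (x - b) ∈ zs Ed := by
    rw [← hA, h1]
    exact hx
  have h3 := (dirs_smul h ((dirs h).smul_mem s hv) (A.symm (x - b))).2 h2
  rw [← hA, map_add, map_smul] at h3
  have h4 : A (A.symm (x - b)) + s • A v + b = x + s • A v := by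
    rw [A.apply_symm_apply]; abel
  rwa [h4] at h3

end Vale.Agent.P284.H224.N
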