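import Vale.Agent.P284.H224.N.One
import Vale.Agent.P284.H224.N.Sym
import Vale.Agent.P284.H213.N.S
import Vale.Agent.P284.H213.K.Mf
import Vale.Agent.P284.H213.K.Fin

/-!
# P284 (helper224), program N, MF-N: the generic fibre is connected
-/

open scoped Manifold ContDiff Topology ENNReal
open Filter Set Metric MeasureTheory

noncomputable section

namespace Vale.Agent.P284.H224.N

open Vale.Agent.P272.K Vale.Agent.P284.H894.W Vale.Agent.P284.H894.G Vale.Agent.P284.H10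
  Vale.Agent.P284.H573 Vale.Agent.P284.H494 Vale.Agent.P284.H837 Vale.Agent.P284.H885
  Vale.Agent.P284.H672 Vale.Agent.P284.H224 Vale.Agent.P284.H279 Vale.Agent.P284.H837.N
  Vale.Agent.P284.H213.Grp Vale.Agent.P284.H213.Q Vale.Agent.P284.H213.MF Vale.Agent.P284.H998

section

variable {n : ℕ} {X : Type} [TopologicalSpace X] [ChartedSpace (Cm n) X]

/-- two affine maps which agree on the values of `F` are equal -/
theorem aff_unique [IsManifold 𝓘(ℂ, Cm n) ω X] {E : Type} [TopologicalSpace E] {p : E → X}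
    {w : Chart n X → Cm n → Matrix (Fin n) (Fin n) ℂ} {q : ℕ} {F : E → Cm q} {B : ℝ}
    (hp : IsCoveringMap p) (hB : HolB p w F B) (hex : ∃ y, Reg (n := n) p F y)
    {A A' : Cm q ≃L[ℂ] Cm q} {b b' : Cm q} (h : ∀ y, A (F y) + b = A' (F y) + b') (x : Cm q) :
    A x + b = A' x + b' := by
  obtain ⟨y, hy⟩ := hex
  have ha : ∀ (A : Cm q ≃L[ℂ] Cm q) (b : Cm q), AnalyticOnNhd ℂ (fun x => A x + b) univ :=
    fun A b x _ => ((A : Cm q →L[ℂ] Cm q).analyticAt x).add analyticAt_const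
  have h1 : (fun x => A x + b) =ᶠ[𝓝 (F y)] fun x => A' x + b' := by
    show ∀ᶠ x in 𝓝 (F y), A x + b = A' x + b'
    rw [← reg_map_nhds hp hB hy, eventually_map]
    exact Eventually.of_forall h
  exact congrFun ((ha A b).eq_of_eventuallyEq (ha A' b') h1) x

/-- **MF-N (II)** -/
theorem noRamN [T2Space X] [CompactSpace X] [ConnectedSpace X] [IsManifold 𝓘(ℂ, Cm n) ω X]
    (hNV : NoV n X) {E Γ : Type} [TopologicalSpace E]
    [ConnectedSpace E] [Group Γ] [MulAction Γ E] {p : E → X} (hp : IsGalois Γ p)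
    {w : Chart n X → Cm n → Matrix (Fin n) (Fin n) ℂ}
    {G : Subgroup Γ} [G.Normal] [Finite (Γ ⧸ G)]
    {Y : Type} [TopologicalSpace Y] [T2Space Y] [CompactSpace Y] [ConnectedSpace Y]
    [ChartedSpace (Cm n) Y] [IsManifold 𝓘(ℂ, Cm n) ω Y] {π : Y → X} {qY : E → Y}
    (hπ : Etale n π) (hpq : ∀ y, π (qY y) = p y) (hq : IsGalois G qY)
    {q : ℕ} {F : E → Cm q} {B : ℝ} (hB : HolB p w F B) (hT : Twi Γ F) {c : G → Cm q}
    (hc : ∀ (g : G) (y : E), F ((g : Γ) • y) = F y + c g) (hlat : LatChar G q c)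
    (hex : ∃ y, Reg (n := n) p F y)
    {Ed : (Cm q → ℂ) → Cm q → Prop} (hEd : PerDiv (per c hlat) Ed) (hne : (zs Ed).Nonempty)
    (hcrit : ∀ y, F y ∈ zs Ed → ¬ Reg (n := n) p F y)
    (hdir : ∀ v : Cm q, (∀ s : ℂ, ∀ x ∈ zs Ed, x + s • v ∈ zs Ed) → v = 0) : False := by
  have hreg : ∀ y, Reg (n := n) qY F y ↔ Reg (n := n) p F y := fun y => hπ.reg_iff hpq
  have hP : Per qY (pull π w) F c := ⟨⟨B, hπ.holB hpq hB⟩, hc, hlat.disc⟩
  obtain ⟨m, k, v, hq1, hm, hv, hinv, hform, y₁, hy₁, himm⟩ := multF n q Y (pull π w) E G qY hq F c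
    hP (by obtain ⟨y, hy⟩ := hex; exact ⟨y, (hreg y).2 hy⟩) (per c hlat) (fun g => ⟨g, rfl⟩)
    (coco_of hlat) Ed hEd hne (fun y hy h => hcrit y hy ((hreg y).1 h)) hdir
  let S : Subgroup Γ :=
    { carrier := {g | g ∈ G ∧ ∀ y, F (g • y) = F y}
      mul_mem' := by
        rintro a b ⟨h1, h2⟩ ⟨h3, h4⟩
        exact ⟨G.mul_mem h1 h3, fun y => by rw [mul_smul, h2, h4]⟩
      one_mem' := ⟨G.one_mem, fun y => by rw [one_smul]⟩
      inv_mem' := by
        rintro a ⟨h1, h2⟩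
        refine ⟨G.inv_mem h1, fun y => ?_⟩
        have h3 := h2 (a⁻¹ • y)
        rw [smul_inv_smul] at h3
        exact h3.symm }
  have hSn : S.Normal := by
    refine ⟨fun g hg k => ⟨Subgroup.Normal.conj_mem inferInstance g hg.1 k, fun y => ?_⟩⟩
    obtain ⟨A, b, hA⟩ := hT k
    rw [mul_smul, mul_smul, hA, hg.2, ← hA, smul_inv_smul]
  refine noForm hNV hp hπ hpq hq hq1 hm hB hT hc hlat.disc hv (R := {y | Reg (n := n) p F y})
    (fun g y hy => (hT.reg_smul_iff hp g y).2 hy) (fun y hy => hy)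
    (fun y hy => hform y ((hreg y).2 hy)) ⟨y₁, (hreg y₁).1 hy₁, himm⟩ S (fun g hg => hg.1)
    (fun g hg => hg.2) (fun g hg y e he ξ => hinv ⟨g, hg.1⟩ y e he ξ) ?_
  refine (finite_singleton (1 : Γ ⧸ S)).subset ?_
  rintro _ ⟨g, rfl, hg⟩
  rw [mem_singleton_iff, QuotientGroup.eq_one_iff]
  exact ⟨g.2, fun y => by rw [hc, hg, add_zero]⟩

/-- **MF-N**: all regular fibres are connected -/
theorem keyN [T2Space X] [CompactSpace X] [ConnectedSpace X] [IsManifold 𝓘(ℂ, Cm n) ω X]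
    (hNV : NoV n X) {E Γ : Type} [TopologicalSpace E]
    [ConnectedSpace E] [Group Γ] [MulAction Γ E] {p : E → X} (hp : IsGalois Γ p)
    {w : Chart n X → Cm n → Matrix (Fin n) (Fin n) ℂ} (hw : IsKahler w)
    {G : Subgroup Γ} [G.Normal] [Finite (Γ ⧸ G)]
    {Y : Type} [TopologicalSpace Y] [T2Space Y] [CompactSpace Y] [ConnectedSpace Y]
    [ChartedSpace (Cm n) Y] [IsManifold 𝓘(ℂ, Cm n) ω Y] {π : Y → X} {qY : E → Y}
    (hπ : Etale n π) (hpq : ∀ y, π (qY y) = p y) (hq : IsGalois G qY)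
    (hEx : ExY n Y) (hT5 : T5Y n Y) : ∀ (q : ℕ) (F : E → Cm q) (B : ℝ) (_ : HolB p w F B)
    (_ : Twi Γ F) (c : G → Cm q) (_ : ∀ (g : G) (y : E), F ((g : Γ) • y) = F y + c g)
    (_ : LatChar G q c) (_ : ∃ y, Reg (n := n) p F y), ∀ t ∈ RV n qY F, IsConnected (F ⁻¹' {t}) := by
  have := Fintype.ofFinite (Γ ⧸ G)
  intro q
  induction q using Nat.strong_induction_on with
  | _ q ih =>
  intro F B hB hT c hc hlat hex
  have hreg : ∀ y, Reg (n := n) qY F y ↔ Reg (n := n) p F y := fun y => hπ.reg_iff hpq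
  have hP : Per qY (pull π w) F c := ⟨⟨B, hπ.holB hpq hB⟩, hc, hlat.disc⟩
  have hexY : ∃ y, Reg (n := n) qY F y := by
    obtain ⟨y, hy⟩ := hex
    exact ⟨y, (hreg y).2 hy⟩
  have hone : One n G qY F c := oneN hNV hp hw hπ hpq hq hEx hT5 hB hT hc hlat.disc hex
  obtain ⟨Ed₀, hEd₀, hcrit₀, htop₀⟩ := br_of d1Stmt topStmt n q Y (pull π w) E G qY hq F c hP hexY
    hone hlat
  -- the sum of the translates of the divisor
  choose A b hA using fun i : Γ ⧸ G => hT i.out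
  have hconj : ∀ (g : Γ) (A : Cm q ≃L[ℂ] Cm q) (b : Cm q), (∀ y, F (g • y) = A (F y) + b) →
      ∀ k : G, ∃ k' : G, c k' = A (c k) := by
    intro g A b hA k
    have h1 : g * (k : Γ) * g⁻¹ ∈ G := Subgroup.Normal.conj_mem inferInstance _ k.2 g
    obtain ⟨y⟩ : Nonempty E := inferInstance
    refine ⟨⟨g * (k : Γ) * g⁻¹, h1⟩, ?_⟩
    have h3 := hc ⟨g * (k : Γ) * g⁻¹, h1⟩ (g • y)
    have h4 : F ((g * (k : Γ) * g⁻¹) • g • y) = F (g • y) + A (c k) := by
      rw [mul_smul, mul_smul, inv_smul_smul, hA, hc, map_add, hA]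
      abel
    have h5 : F (((⟨g * (k : Γ) * g⁻¹, h1⟩ : G) : Γ) • g • y) = F (g • y) + A (c k) := h4
    rw [h5] at h3
    exact (add_left_cancel h3).symm
  set Ed := EdS Ed₀ A b with hEdS
  have hEd : PerDiv (per c hlat) Ed := perDiv_sym hEd₀ (by
    rintro i _ ⟨k, rfl⟩
    exact hconj i.out (A i) (b i) (hA i) k)
  have hzs : ∀ x, x ∈ zs Ed ↔ ∃ i, A i x + b i ∈ zs Ed₀ := fun x => mem_sym hEd₀
  have hper₀ : ∀ (k : G) (x : Cm q), x + c k ∈ zs Ed₀ ↔ x ∈ zs Ed₀ := fun k x =>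
    (le_stab hEd₀ (show c k ∈ per c hlat from ⟨k, rfl⟩)) x
  have hinv : ∀ (g : Γ) (A' : Cm q ≃L[ℂ] Cm q) (b' : Cm q), (∀ y, F (g • y) = A' (F y) + b') →
      ∀ x, x ∈ zs Ed → A' x + b' ∈ zs Ed := by
    intro g A' b' hA' x hx
    obtain ⟨j, hj⟩ := (hzs x).1 hx
    -- `i.out * g = k * j.out`
    obtain ⟨k, hk, h1⟩ := out_mul (G := G) (j * (g⁻¹ : Γ ⧸ G)) g
    have hj' : j * (g⁻¹ : Γ ⧸ G) * (g : Γ ⧸ G) = j := by
      rw [mul_assoc, inv_mul_cancel, mul_one]
    rw [hj'] at h1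
    set i := j * (g⁻¹ : Γ ⧸ G) with hi
    rw [hzs]
    refine ⟨i, ?_⟩
    have h2 := aff_unique hp.cov hB hex (A := A'.trans (A i)) (b := A i b' + b i)
      (A' := A j) (b' := b j + c ⟨k, hk⟩) (fun y => by
        have h3 : F ((i.out * g) • y) = A i (A' (F y) + b') + b i := by
          rw [mul_smul, hA, hA']
        have h4 : F ((k * j.out) • y) = A j (F y) + b j + c ⟨k, hk⟩ := by
          rw [mul_smul, ← hA]
          exact hc ⟨k, hk⟩ _
        rw [h1, h4, map_add] at h3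
        show A i (A' (F y)) + (A i b' + b i) = A j (F y) + (b j + c ⟨k, hk⟩)
        rw [← add_assoc, ← h3, add_assoc]) x
    have h5 : A i (A' x + b') + b i = A j x + b j + c ⟨k, hk⟩ := by
      rw [map_add, add_assoc, add_assoc]
      exact h2
    rw [h5, hper₀]
    exact hj
  have hcrit : ∀ y, F y ∈ zs Ed → ¬ Reg (n := n) p F y := by
    intro y hy hr
    obtain ⟨i, hi⟩ := (hzs _).1 hy
    rw [← hA] at hi
    exact hcrit₀ _ hi ((hreg _).2 ((hT.reg_smul_iff hp _ _).2 hr))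
  have hsub : zs Ed₀ ⊆ zs Ed := by
    intro x hx
    rw [hzs]
    have h1 : ((1 : Γ ⧸ G).out : Γ) ∈ G := by
      rw [← QuotientGroup.eq_one_iff, QuotientGroup.out_eq']
    refine ⟨1, ?_⟩
    have h2 := aff_unique hp.cov hB hex (A := A 1) (b := b 1)
      (A' := ContinuousLinearEquiv.refl ℂ _) (b' := c ⟨_, h1⟩) (fun y => by
        rw [← hA]
        exact hc ⟨_, h1⟩ y) x
    rw [h2]
    exact (hper₀ _ _).2 hx
  have htop : ∀ O : Set (Cm q), IsOpen O → Convex ℝ O → O.Nonempty → IsPreconnected (F ⁻¹' O) →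
      Disjoint O (zs Ed) → ∀ t ∈ RV n qY F, IsConnected (F ⁻¹' {t}) :=
    fun O h1 h2 h3 h4 h5 => htop₀ O h1 h2 h3 h4 (h5.mono_right hsub)
  rcases (zs Ed).eq_empty_or_nonempty with hemp | hne
  · refine htop univ isOpen_univ convex_univ univ_nonempty ?_ ?_
    · rw [preimage_univ]; exact isPreconnected_univ
    · rw [hemp]; exact disjoint_empty _
  by_cases hdir : dirs hEd = ⊥
  · exact (noRamN hNV hp hπ hpq hq hB hT hc hlat hex hEd hne hcrit (fun v hv => by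
      have := dirs_of hEd hv
      rwa [hdir, Submodule.mem_bot] at this)).elim
  -- the quotient torus
  set V : Submodule ℂ (Cm q) := dirs hEd with hV
  set r : ℕ := Module.finrank ℂ (Cm q ⧸ V) with hr
  have hVpos : 0 < Module.finrank ℂ V :=
    Nat.pos_of_ne_zero fun h => hdir (Submodule.finrank_eq_zero.1 h)
  have hsum : Module.finrank ℂ (Cm q ⧸ V) + Module.finrank ℂ V = q := by
    have := V.finrank_quotient_add_finrank
    rwa [Module.finrank_fin_fun] at this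
  have hrq : r < q := by omega
  let e : (Cm q ⧸ V) ≃ₗ[ℂ] Cm r := LinearEquiv.ofFinrankEq _ _ (by
    rw [Module.finrank_fin_fun])
  set L : Cm q →ₗ[ℂ] Cm r := e.toLinearMap ∘ₗ V.mkQ with hL
  have hLs : Function.Surjective L := e.surjective.comp V.mkQ_surjective
  have hker : LinearMap.ker L = V := by
    ext v
    rw [LinearMap.mem_ker, hL, LinearMap.comp_apply, LinearEquiv.coe_coe,
      LinearEquiv.map_eq_zero_iff, Submodule.mkQ_apply, Submodule.Quotient.mk_eq_zero]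
  have hlat' : LatChar G r (fun g => L (c g)) := by
    refine hlat.quot ⊤ V (fun v hv => ?_) L hLs hker
    have h1 := dirs_span hEd (coco_of hlat) hv
    refine Submodule.span_mono ?_ h1
    rintro x ⟨⟨g, rfl⟩, hx⟩
    exact ⟨⟨g, trivial, rfl⟩, hx⟩
  obtain ⟨B', hB'⟩ := HolB.linear hB L
  have hT' : Twi Γ (fun y => L (F y)) := by
    refine twi_comp hT (LinearMap.toContinuousLinearMap L) hLs fun g A' b' hA' u hu => ?_
    have h1 : u ∈ V := by
      rw [← hker, LinearMap.mem_ker]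
      exact hu
    have h2 : A' u ∈ V := dirs_inv hEd (fun x => ⟨fun hx => ?_, hinv g A' b' hA' x⟩) h1
    · have h3 : A' u ∈ LinearMap.ker L := by rw [hker]; exact h2
      exact LinearMap.mem_ker.1 h3
    · obtain ⟨A₂, b₂, hA₂⟩ := hT g⁻¹
      have h4 := hinv g⁻¹ A₂ b₂ hA₂ _ hx
      have h5 := aff_unique hp.cov hB hex (A := A'.trans A₂) (b := A₂ b' + b₂)
        (A' := ContinuousLinearEquiv.refl ℂ _) (b' := 0) (fun y => by
          show A₂ (A' (F y)) + (A₂ b' + b₂) = F y + 0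
          rw [add_zero, ← add_assoc, ← map_add, ← hA', ← hA₂, inv_smul_smul]) x
      have h6 : A₂ (A' x + b') + b₂ = x := by
        rw [map_add, add_assoc]
        exact h5.trans (add_zero x)
      rwa [h6] at h4
  have hc' : ∀ (g : G) (y : E), L (F ((g : Γ) • y)) = L (F y) + L (c g) := by
    intro g y
    rw [hc, map_add]
  have hex' : ∃ y, Reg (n := n) p (fun y => L (F y)) y := by
    obtain ⟨y, hy⟩ := hex
    exact ⟨y, Reg.linear hp.cov hB L hLs hy⟩
  have hex'Y : ∃ y, Reg (n := n) qY (fun y => L (F y)) y := by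
    obtain ⟨y, hy⟩ := hex'
    exact ⟨y, (hπ.reg_iff hpq).2 hy⟩
  have hih := ih r hrq (fun y => L (F y)) B' hB' hT' (fun g => L (c g)) hc' hlat' hex'
  have hP' : Per qY (pull π w) (fun y => L (F y)) (fun g => L (c g)) :=
    ⟨⟨B', hπ.holB hpq hB'⟩, hc', hlat'.disc⟩
  have hpre := preStmt n r Y (pull π w) E G qY hq (fun y => L (F y)) (fun g => L (c g)) hP' hex'Y
    hih
  -- a ball of the quotient which does not meet the divisor
  obtain ⟨t₀, ht₀⟩ := zs_ne_univ hEd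
  have hLc : Continuous L := L.continuous_of_finiteDimensional
  have hLo : IsOpenMap L := by
    have := (LinearMap.toContinuousLinearMap L).isOpenMap hLs
    exact this
  have hopen : IsOpen (L '' (zs Ed)ᶜ) := hLo _ (Vale.Agent.P284.H213.MF.zs_closed hEd).isOpen_compl
  obtain ⟨ρ, hρ, hball⟩ := Metric.isOpen_iff.1 hopen (L t₀) ⟨t₀, ht₀, rfl⟩
  refine htop (L ⁻¹' ball (L t₀) ρ) (isOpen_ball.preimage hLc) ?_ ⟨t₀, mem_ball_self hρ⟩
    (hpre (ball (L t₀) ρ) isOpen_ball (convex_ball _ _)) ?_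
  · exact (convex_ball (L t₀) ρ).linear_preimage (L.restrictScalars ℝ)
  · rw [Set.disjoint_left]
    intro t ht htz
    obtain ⟨s, hs, hst⟩ := hball ht
    have h1 : t - s ∈ V := by
      rw [← hker, LinearMap.mem_ker, map_sub, hst, sub_self]
    apply hs
    have h2 := dirs_smul hEd h1 s
    rw [add_sub_cancel] at h2
    exact h2.1 htz

/-- **MF-N**, for the class `D` -/
theorem mfN_of {D : Cls}
    (hNV : ∀ (n : ℕ) (X : Type) [TopologicalSpace X] [T2Space X] [CompactSpace X]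
      [ConnectedSpace X] [ChartedSpace (Cm n) X] [IsManifold 𝓘(ℂ, Cm n) ω X]
      (w : Chart n X → Cm n → Matrix (Fin n) (Fin n) ℂ), IsKahler w → D n X → NoV n X)
    (hE : ∀ (n : ℕ) (X : Type) [TopologicalSpace X] [T2Space X] [CompactSpace X]
      [ConnectedSpace X] [ChartedSpace (Cm n) X] [IsManifold 𝓘(ℂ, Cm n) ω X], D n X →
      ∀ (Y : Type) [TopologicalSpace Y] [T2Space Y] [CompactSpace Y]
      [ConnectedSpace Y] [ChartedSpace (Cm n) Y] [IsManifold 𝓘(ℂ, Cm n) ω Y] (π : Y → X),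
      Etale n π → ExY n Y ∧ T5Y n Y) : H213.N.MFN D := by
  intro n X _ _ _ _ _ _ hD w hw E Γ _ _ _ _ p hp q F G A c hA hB heq hex
  obtain ⟨B, hB⟩ := hB
  have := hA.normal
  have hfi : G.FiniteIndex := hA.fi
  have : Finite (Γ ⧸ G) := inferInstance
  obtain ⟨Y, _, _, _, _, _, _, qY, π, hπ, -, hq, hpq⟩ := exists_quo n X E Γ p hp G hA.fi
  have hT : Twi Γ F := fun g => ⟨(A g).toContinuousLinearEquiv, c g, fun y => heq g y⟩
  have hc : ∀ (g : G) (y : E), F ((g : Γ) • y) = F y + c g := by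
    intro g y
    rw [heq, hA.one _ g.2]
    rfl
  obtain ⟨h1, h2⟩ := hE n X hD Y π hπ
  have key := keyN (hNV n X w hw hD) hp hw hπ hpq hq h1 h2 q F B hB hT (fun g : G => c g) hc hA.lat
    hex
  have hreg : ∀ y, Reg (n := n) qY F y ↔ Reg (n := n) p F y := fun y => hπ.reg_iff hpq
  have hRVe : RV n qY F = RV n p F := by
    ext t
    exact ⟨fun h y hy => (hreg y).1 (h y hy), fun h y hy => (hreg y).2 (h y hy)⟩
  have hP : Per qY (pull π w) F (fun g : G => c g) := ⟨⟨B, hπ.holB hpq hB⟩, hc, hA.lat.disc⟩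
  obtain ⟨h3, h4, -⟩ := rvStmt n q Y (pull π w) E G qY hq F (fun g : G => c g) hP (by
    obtain ⟨y, hy⟩ := hex
    exact ⟨y, (hreg y).2 hy⟩)
  refine ⟨(RV n qY F)ᶜ, h3.isClosed_compl, ?_, fun t ht => ?_⟩
  · rw [interior_compl, h4.closure_eq, compl_univ]
  · rw [notMem_compl_iff] at ht
    refine ⟨key t ht, ?_⟩
    rw [hRVe] at ht
    exact ht

/-- projective manifolds -/
theorem exY_pj {n : ℕ} {Y : Type} [TopologicalSpace Y] [T2Space Y] [CompactSpace Y]
    [ConnectedSpace Y] [ChartedSpace (Cm n) Y] [IsManifold 𝓘(ℂ, Cm n) ω Y] {ι : Type} [Fintype ι]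
    (J : PJ n Y ι) : ExY n Y ∧ T5Y n Y :=
  ⟨fun q w hw E Γ _ _ _ _ p hp F c hF => exStmt n q Y ι J w hw E Γ p hp F c hF,
    fun q w _ E Γ _ _ _ _ p hp F c hF hex => Vale.Agent.P284.H672.t5Stmt n q Y ι J w E Γ p hp F c
      hF hex⟩

/-- **MF-N for projective manifolds without natural forms**, in particular for special projective
manifolds -/
theorem mfN_pj : H213.N.MFN (H213.K.pjC noVC) :=
  mfN_of (fun _ _ _ _ _ _ _ _ _ _ hD => hD.2) fun n X _ _ _ _ _ _ hD Y _ _ _ _ _ _ π hπ => by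
    obtain ⟨⟨ι, _, ⟨J⟩⟩, -⟩ := hD
    exact exY_pj (hπ.pj J)

/-- **MF-N for compact Kähler manifolds without natural forms** -/
theorem mfN_kah (hEx : H213.K.ExK) (hT5 : H213.K.T5K) : H213.N.MFN noVC :=
  mfN_of (fun _ _ _ _ _ _ _ _ _ _ hD => hD) fun n _ _ _ _ _ _ _ _ Y _ _ _ _ _ _ _ _ =>
    ⟨fun q w hw E Γ _ _ _ _ p hp F c hF => hEx n q Y w hw E Γ p hp F c hF,
      fun q w hw E Γ _ _ _ _ p hp F c hF hex => hT5 n q Y w hw E Γ p hp F c hF hex⟩

end

end Vale.Agent.P284.H224.N
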