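import Vale.Agent.P284.H224.N.TailF
import Vale.Agent.P284.H224.N.MultF
import Vale.Agent.P284.H224.N.Lf
import Vale.Agent.P284.H224.Sp
import Vale.Agent.P284.H136.Line2
import Vale.Agent.P284.H837.N.S

/-!
# P284 (helper224), program N, MF-N (I): two components of a regular fibre are equivalent under the kernel
of the periods of the normal subgroup `G`

The form over the finite covering `Y = E / G` is replaced by the sum of its translates over `X`.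
-/

open scoped Manifold ContDiff Topology ENNReal
open Filter Set Metric MeasureTheory

noncomputable section

namespace Vale.Agent.P284.H224.N

open Vale.Agent.P272.K Vale.Agent.P284.H894.W Vale.Agent.P284.H894.G Vale.Agent.P284.H10
  Vale.Agent.P284.H573 Vale.Agent.P284.H494 Vale.Agent.P284.H837 Vale.Agent.P284.H885
  Vale.Agent.P284.H672 Vale.Agent.P284.H224 Vale.Agent.P284.H279 Vale.Agent.P284.H837.N
  Vale.Agent.P284.H213.Grp Vale.Agent.P284.H174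

/-- **EX** for one manifold -/
def ExY (n : ℕ) (Y : Type) [TopologicalSpace Y] [ChartedSpace (Cm n) Y] : Prop :=
  ∀ (q : ℕ) (w : Chart n Y → Cm n → Matrix (Fin n) (Fin n) ℂ), IsKahler w →
    ∀ (E Γ : Type) [TopologicalSpace E] [ConnectedSpace E] [Group Γ] [MulAction Γ E]
    (p : E → Y), IsGalois Γ p →
    ∀ (F : E → Cm q) (c : Γ → Cm q), Per p w F c →
    ∀ y y' : E, F y' = F y → F y ∈ RV n p F → (∀ g : Γ, c g = 0 → ¬ Same F (g • y) y') →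
    ∃ h : E → ℂ, ExFun n Γ p F c h

/-- **T5** for one manifold -/
def T5Y (n : ℕ) (Y : Type) [TopologicalSpace Y] [ChartedSpace (Cm n) Y] : Prop :=
  ∀ (q : ℕ) (w : Chart n Y → Cm n → Matrix (Fin n) (Fin n) ℂ), IsKahler w →
    ∀ (E Γ : Type) [TopologicalSpace E] [ConnectedSpace E] [Group Γ] [MulAction Γ E]
    (p : E → Y), IsGalois Γ p →
    ∀ (F : E → Cm q) (c : Γ → Cm q), Per p w F c → (∃ y, Reg (n := n) p F y) →
    ∀ (W : Type) [NormedAddCommGroup W] [InnerProductSpace ℂ W] [CompleteSpace W] (h : E → W),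
      SheetHol n p F h → (∀ g : Γ, c g = 0 → ∀ y, Reg (n := n) p F y → ‖h (g • y)‖ = ‖h y‖) →
    ∃ s : Cm q → ℝ≥0∞, (∀ R : ℝ, ∫⁻ t in ball (0 : Cm q) R, s t < ⊤) ∧
      ∀ y, F y ∈ RV n p F → ENNReal.ofReal (‖h y‖ ^ 2) ≤ s (F y)

section

variable {n : ℕ} {X : Type} [TopologicalSpace X] [ChartedSpace (Cm n) X]

/-- `NoV` without the equivariance hypothesis (copy of helper213's `noV_noeqv`) -/
theorem noV_free [IsManifold 𝓘(ℂ, Cm n) ω X] (h : NoV n X) (E Γ : Type) [TopologicalSpace E]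
    [ConnectedSpace E] [Group Γ] [MulAction Γ E] (p : E → X) (hG : IsGalois Γ p) (q : ℕ)
    (F : E → Cm q)
    (hF : ∀ (y : E) (e : Chart n X), At e (p y) → ∃ f : Cm n → Cm q,
      (∀ᶠ y' in 𝓝 y, F y' = f (e (p y'))) ∧ AnalyticAt ℂ f (e (p y)))
    (hA : Aff Γ F)
    (H : Type) [NormedAddCommGroup H] [InnerProductSpace ℂ H] [CompleteSpace H]
    (R m : ℕ) (hR : 1 ≤ R) (hm : 1 ≤ m) (v : E → Chart n X → (Fin R → Cm n) → H)
    (hv : HForm n R m p H v)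
    (hN : ∃ y₀ e b γ t, NFF m p v F y₀ e b γ t) (hL : LFin Γ m p v F) : False := by
  obtain ⟨y₀, e, b, γ, t, hN⟩ := hN
  refine h E Γ p hG q F hF hA (EQ.VS p v) R m hR hm (EQ.vS p v) (EQ.vS_hform hG.cov hv)
    (fun g => ?_) ⟨y₀, e, b, _, t, EQ.nff_vS hG.cov hN⟩ (EQ.lfin_vS hG.cov hL)
  obtain ⟨U, hU⟩ := EQ.vS_eqv hG hv g
  exact ⟨U.toLinearIsometry, hU⟩

theorem hol_of_holB {E : Type} [TopologicalSpace E] {p : E → X}
    {w : Chart n X → Cm n → Matrix (Fin n) (Fin n) ℂ} {q : ℕ} {F : E → Cm q} {B : ℝ}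
    (hF : HolB p w F B) (y : E) (e : Chart n X) (he : At e (p y)) : ∃ f : Cm n → Cm q,
      (∀ᶠ y' in 𝓝 y, F y' = f (e (p y'))) ∧ AnalyticAt ℂ f (e (p y)) := by
  obtain ⟨f, h1, h2, -⟩ := hF y e he
  exact ⟨f, h1, (Vale.Agent.P299.H720.contDiffAt_of_eventually h2).analyticAt⟩

/-- **the form over `Y` and the sum of its translates over `X`** -/
theorem noForm [IsManifold 𝓘(ℂ, Cm n) ω X] (hNV : NoV n X) {E Γ : Type} [TopologicalSpace E]
    [ConnectedSpace E] [Group Γ] [MulAction Γ E] {p : E → X} (hp : IsGalois Γ p)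
    {w : Chart n X → Cm n → Matrix (Fin n) (Fin n) ℂ}
    {G : Subgroup Γ} [G.Normal] [Finite (Γ ⧸ G)]
    {Y : Type} [TopologicalSpace Y] [ChartedSpace (Cm n) Y] {π : Y → X} {qY : E → Y}
    (hπ : Etale n π) (hpq : ∀ y, π (qY y) = p y) (hq : IsGalois G qY)
    {r m : ℕ} (hr : 1 ≤ r) (hm : 1 ≤ m) {t : E → Cm r} {B : ℝ} (ht : HolB p w t B)
    (hT : Twi Γ t) {c : G → Cm r} (hc : ∀ (g : G) (y : E), t ((g : Γ) • y) = t y + c g)
    (hdisc : ∀ ρ : ℝ, {τ | (∃ g : G, c g = τ) ∧ ‖τ‖ ≤ ρ}.Finite)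
    {H : Type} [NormedAddCommGroup H] [InnerProductSpace ℂ H] [CompleteSpace H]
    {v : E → Chart n Y → (Fin r → Cm n) → H} (hv : HForm n r m qY H v)
    {R : Set E} (hR : ∀ (g : Γ) (y : E), y ∈ R → g • y ∈ R)
    (hRr : ∀ y ∈ R, Reg (n := n) p t y) (hf : ∀ y ∈ R, ∃ γ, FormAt qY t m v y γ)
    (hi : ∃ y ∈ R, ∃ γ, FormAt qY t m v y γ ∧ ImmAt γ (t y))
    (S : Subgroup Γ) [S.Normal] (hSG : S ≤ G) (hS : ∀ g ∈ S, ∀ y, t (g • y) = t y)
    (hvS : ∀ g ∈ S, ∀ y e, At e (qY y) → ∀ ξ, v (g • y) e ξ = v y e ξ)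
    (hfin : {a : Γ ⧸ S | ∃ g : G, ((g : Γ) : Γ ⧸ S) = a ∧ c g = 0}.Finite) : False := by
  have := Fintype.ofFinite (Γ ⧸ G)
  have hqg : ∀ g ∈ G, ∀ y, qY (g • y) = qY y := fun g hg y => p_smul' hq ⟨g, hg⟩ y
  have hu : PForm n r m p H (fl π qY v) := PForm.fl hπ hq.cov.continuous hpq hv.pForm
  have hch := hv.change
  have htot : HForm n r m p (PiLp 2 fun _ : Γ ⧸ G => H) (tot G (fl π qY v)) :=
    hform_tot hp hu fun g hg y e he ξ => norm_fl hπ hpq hv.pForm hv.inv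
      (by rwa [p_smul' hp]) (hqg g hg y) ξ
  refine noV_free hNV E Γ p hp r t (hol_of_holB ht) hT (PiLp 2 fun _ : Γ ⧸ G => H) r m hr hm
    (tot G (fl π qY v)) htot (nff_tot hp ht hT hR hRr ?_ ?_) (lfin_tw hT
      (hol_continuous hp.cov ht) hc hdisc S hS ?_ hfin)
  · intro y hy
    obtain ⟨γ, hγ⟩ := hf y hy
    exact ⟨γ, hγ.fl hπ hpq hch⟩
  · obtain ⟨y, hy, γ, hγ, hγ'⟩ := hi
    exact ⟨y, hy, γ, hγ.fl hπ hpq hch, hγ'⟩
  · intro g hg y e he ξ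
    refine tot_smul (G := G) (S := S) (p := p) (fun k hk z hz => ?_) (fun k z => p_smul' hp k z) hg
    exact fl_smul hπ hpq hv.pForm (hqg k (hSG hk) z) (hvS k hk z) (by rwa [hz]) ξ

/-- **MF-N (I)** -/
theorem oneN [T2Space X] [CompactSpace X] [ConnectedSpace X] [IsManifold 𝓘(ℂ, Cm n) ω X]
    (hNV : NoV n X) {E Γ : Type} [TopologicalSpace E]
    [ConnectedSpace E] [Group Γ] [MulAction Γ E] {p : E → X} (hp : IsGalois Γ p)
    {w : Chart n X → Cm n → Matrix (Fin n) (Fin n) ℂ} (hw : IsKahler w)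
    {G : Subgroup Γ} [G.Normal] [Finite (Γ ⧸ G)]
    {Y : Type} [TopologicalSpace Y] [T2Space Y] [CompactSpace Y] [ConnectedSpace Y]
    [ChartedSpace (Cm n) Y] [IsManifold 𝓘(ℂ, Cm n) ω Y] {π : Y → X} {qY : E → Y}
    (hπ : Etale n π) (hpq : ∀ y, π (qY y) = p y) (hq : IsGalois G qY)
    (hEx : ExY n Y) (hT5 : T5Y n Y)
    {q : ℕ} {F : E → Cm q} {B : ℝ} (hB : HolB p w F B) (hT : Twi Γ F) {c : G → Cm q}
    (hc : ∀ (g : G) (y : E), F ((g : Γ) • y) = F y + c g)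
    (hdisc : ∀ ρ : ℝ, {τ | (∃ g : G, c g = τ) ∧ ‖τ‖ ≤ ρ}.Finite)
    (hex : ∃ y, Reg (n := n) p F y) : One n G qY F c := by
  have := Fintype.ofFinite (Γ ⧸ G)
  have hwY : IsKahler (pull π w) := hπ.isKahler hw
  have hP : Per qY (pull π w) F c := ⟨⟨B, hπ.holB hpq hB⟩, hc, hdisc⟩
  have hreg : ∀ y, Reg (n := n) qY F y ↔ Reg (n := n) p F y := fun y => hπ.reg_iff hpq
  have hexY : ∃ y, Reg (n := n) qY F y := by
    obtain ⟨y, hy⟩ := hex
    exact ⟨y, (hreg y).2 hy⟩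
  intro y y' hyy hrv
  by_contra hcon
  push Not at hcon
  obtain ⟨h, hh⟩ := hEx q (pull π w) hwY E G qY hq F c hP y y' hyy hrv hcon
  obtain ⟨W, _, _, _, h₁, hs, hU, hne, hker⟩ :=
    H661.Lim.limStmt' n q Y (pull π w) E G qY hq F c hP h hh
  have hint := hT5 q (pull π w) hwY E G qY hq F c hP hexY W h₁ hs (by
    intro g _ y hy
    obtain ⟨U, hU⟩ := hU g
    rw [hU y hy, U.norm_map])
  have hS := sheetFun_tot hπ hpq hp hq hP hT hs hU hint hne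
  obtain ⟨r, m, ϖ, H, _, _, _, v, hq1, hr, hm, hϖ, -, hloc, hv, hfix, hform, himm⟩ :=
    tailF n q Y (pull π w) E G qY hq F c hP _ (totF G h₁) hS
  have hlat := rat_of H136.Rat.lineStmt n q r Y (pull π w) E G qY hq F c hP
    (lat_of_per hq hP hexY) hexY _ (totF G h₁) hS ϖ hϖ hloc
  -- equivariance under `Γ`
  have hU' : ∀ k ∈ G, ∃ U : W →ₗᵢ[ℂ] W, ∀ y, Reg (n := n) p F y → h₁ (k • y) = U (h₁ y) := by
    intro k hk
    obtain ⟨U, hU⟩ := hU ⟨k, hk⟩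
    exact ⟨U, fun y hy => hU y ((hreg y).2 hy)⟩
  have hUt := totF_equiv (G := G) hp hT hU'
  have hlocX : ∀ y, Reg (n := n) p F y → ∃ f : Cm r → PiLp 2 (fun _ : Γ ⧸ G => W),
      AnalyticAt ℂ f (ϖ (F y)) ∧ (∀ᶠ y' in 𝓝 y, totF G h₁ y' = f (ϖ (F y'))) ∧
      ∀ v : Cm r, (∀ᶠ a in 𝓝 (ϖ (F y)), fderiv ℂ f a v = 0) → v = 0 :=
    fun y hy => hloc y ((hreg y).2 hy)
  have hkinv := ker_inv hp hB hT hex ϖ hϖ hlocX hUt
  have hTt : Twi Γ (fun y => ϖ (F y)) := twi_comp hT ϖ hϖ hkinv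
  have htB := holB_comp (p := p) (w := w) ϖ hB
  have hct : ∀ (g : G) (y : E), ϖ (F ((g : Γ) • y)) = ϖ (F y) + ϖ (c g) := by
    intro g y
    rw [hc, map_add]
  -- the subgroup
  set SG : Subgroup G := Fin.fixS (totF G h₁) hq hP ϖ with hSG
  have hSGm : ∀ g : G, g ∈ SG ↔ ϖ (c g) = 0 ∧
      ∀ y, Reg (n := n) qY F y → totF G h₁ (g • y) = totF G h₁ y := fun g => Iff.rfl
  set S : Subgroup Γ := SG.map G.subtype with hS'
  have hSle : S ≤ G := by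
    rintro _ ⟨g, -, rfl⟩
    exact g.2
  have hSmem : ∀ g : Γ, g ∈ S ↔ g ∈ G ∧ (∀ y, ϖ (F (g • y)) = ϖ (F y)) ∧
      ∀ y, Reg (n := n) p F y → totF G h₁ (g • y) = totF G h₁ y := by
    intro g
    constructor
    · rintro ⟨k, hk, rfl⟩
      refine ⟨k.2, fun y => ?_, fun y hy => hk.2 y ((hreg y).2 hy)⟩
      have h1 : ϖ (c k) = 0 := hk.1
      show ϖ (F ((k : Γ) • y)) = _
      rw [hct, h1, add_zero]
    · rintro ⟨hg, h1, h2⟩
      refine ⟨⟨g, hg⟩, ⟨?_, fun y hy => h2 y ((hreg y).1 hy)⟩, rfl⟩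
      obtain ⟨y⟩ : Nonempty E := inferInstance
      have h3 := hct ⟨g, hg⟩ y
      have h4 : ϖ (F (((⟨g, hg⟩ : G) : Γ) • y)) = ϖ (F y) := h1 y
      rw [h4] at h3
      exact (left_eq_add.1 h3)
  have hSn : S.Normal := by
    refine ⟨fun g hg k => ?_⟩
    rw [hSmem] at hg ⊢
    obtain ⟨h1, h2, h3⟩ := hg
    refine ⟨Subgroup.Normal.conj_mem inferInstance g h1 k, fun y => ?_, fun y hy => ?_⟩
    · obtain ⟨A, b, hA⟩ := hTt k
      have h4 : ϖ (F (k • g • k⁻¹ • y)) = A (ϖ (F (g • k⁻¹ • y))) + b := hA _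
      have h5 : ϖ (F (k • k⁻¹ • y)) = A (ϖ (F (k⁻¹ • y))) + b := hA _
      rw [mul_smul, mul_smul, h4, h2, ← h5, smul_inv_smul]
    · obtain ⟨U, hUk⟩ := hUt k
      have h4 : Reg (n := n) p F (k⁻¹ • y) := (hT.reg_smul_iff hp _ _).2 hy
      have h5 : Reg (n := n) p F (g • k⁻¹ • y) := (hT.reg_smul_iff hp _ _).2 h4
      rw [mul_smul, mul_smul, hUk _ h5, h3 _ h4, ← hUk _ h4, smul_inv_smul]
  have hfinS : {a : Γ ⧸ S | ∃ g : G, ((g : Γ) : Γ ⧸ S) = a ∧ ϖ (c g) = 0}.Finite := by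
    have hfin := Fin.fin_of hq1 hq hP hexY hS.equiv (fun g hg y hy => by
      refine totF_fix (G := G) hp hT (fun k z hz => ?_) ((hreg y).1 hy)
      have h1 : k * (g : Γ) * k⁻¹ ∈ G := Subgroup.Normal.conj_mem inferInstance _ g.2 k
      have h2 : c ⟨k * (g : Γ) * k⁻¹, h1⟩ = 0 := by
        obtain ⟨A, b, hA⟩ := hT k
        have h3 := hc ⟨k * (g : Γ) * k⁻¹, h1⟩ z
        have h4 : F ((k * (g : Γ) * k⁻¹) • z) = F z := by
          rw [mul_smul, mul_smul, hA, hc, hg, add_zero, ← hA, smul_inv_smul]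
        have h5 : F (((⟨k * (g : Γ) * k⁻¹, h1⟩ : G) : Γ) • z) = F z := h4
        rw [h5] at h3
        exact left_eq_add.1 h3
      exact hker _ h2 z ((hreg z).2 hz)) ϖ hϖ (fun y hy => by
        obtain ⟨f, h1, h2, -⟩ := hloc y hy
        exact ⟨f, h1, h2⟩)
    refine (hfin.image fun a : G ⧸ SG => (((a.out : G) : Γ) : Γ ⧸ S)).subset ?_
    rintro _ ⟨g, rfl, hg⟩
    refine ⟨(g : G ⧸ SG), ⟨g, rfl, hg⟩, ?_⟩
    obtain ⟨s, hs⟩ := QuotientGroup.mk_out_eq_mul SG g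
    show ((((g : G ⧸ SG).out : G) : Γ) : Γ ⧸ S) = ((g : Γ) : Γ ⧸ S)
    rw [hs]
    symm
    rw [QuotientGroup.eq]
    refine ⟨s, s.2, ?_⟩
    show ((s : G) : Γ) = (g : Γ)⁻¹ * ((g * s : G) : Γ)
    rw [Subgroup.coe_mul, inv_mul_cancel_left]
  refine noForm hNV hp hπ hpq hq hr hm htB hTt hct hlat.disc hv
    (R := {y | Reg (n := n) p F y}) (fun g y hy => (hT.reg_smul_iff hp g y).2 hy)
    (fun y hy => reg_comp hp.cov ϖ hϖ hB hy)
    (fun y hy => hform y ((hreg y).2 hy)) ?_ S hSle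
    (fun g hg => ((hSmem g).1 hg).2.1) (fun g hg => ?_) hfinS
  · obtain ⟨y, hy, h1⟩ := himm
    exact ⟨y, (hreg y).1 hy, h1⟩
  · obtain ⟨h1, -, h2⟩ := (hSmem g).1 hg
    exact hfix ⟨g, h1⟩ fun y hy => h2 y ((hreg y).1 hy)

end

end Vale.Agent.P284.H224.N
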